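import Vale.Agent.P235.H141.JDefs
import Vale.Agent.P235.R2.H611.K33a
import Vale.Agent.P235.R2.H26.NoK33
import Vale.Agent.P235.R2.H582.Contract

/-!
# (PK) plane graphs have no minor `K_{3,3}` (helper427)
-/

namespace Vale.Agent.P235.H427

open SimpleGraph Vale.Agent.P235.H134 Vale.Agent.P235.H56 Vale.Agent.P235.Quo
open Vale.Agent.P235.H141

theorem quo_eq_quot {V W : Type} (G : SimpleGraph V) (π : V → W) : quo G π = quot G π := by
  ext a b
  constructor
  · rintro ⟨h, x, y, h1, h2, h3⟩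
    exact ⟨h, x, y, h2, h3, h1⟩
  · rintro ⟨h, x, y, h1, h2, h3⟩
    exact ⟨h, x, y, h3, h1, h2⟩

theorem quot_connected {V W : Type} {G : SimpleGraph V} {π : V → W} (hG : G.Connected)
    (hf : ∀ w, (G.induce {v | π v = w}).Connected) : (quot G π).Connected := by
  refine connected_of_map π (fun w => ?_) (fun x y hxy => ?_) hG
  · obtain ⟨⟨x, hx⟩⟩ := (hf w).nonempty
    exact ⟨x, hx⟩
  · by_cases h : π x = π y
    · exact Or.inl h
    · exact Or.inr ⟨h, x, y, rfl, rfl, hxy⟩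

theorem pk : PKStmt := by
  intro V _ G hG hP hm
  obtain ⟨φ, h1, h2⟩ := exists_model hG ⟨Sum.inl 0⟩ hm
  obtain ⟨σ', hσ'⟩ := rowQuo Vale.Agent.P235.R2.H582.Contract.rowCon V (Fin 3 ⊕ Fin 3) G φ hG hP h1
    (by simp)
  have hK : RowK33 := rowK33 (rowQuo Vale.Agent.P235.R2.H582.Contract.rowCon) noK33
  have hc : (quo G φ).Connected := by
    rw [quo_eq_quot]
    exact quot_connected hG h1
  refine hK _ (quo G φ) hc ⟨σ', hσ'⟩ Sum.inr (fun i => {Sum.inl i}) Sum.inr_injective ?_ ?_ ?_ ?_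
  · intro i
    exact (SimpleGraph.connected_iff _).2 ⟨Preconnected.of_subsingleton, ⟨⟨_, rfl⟩⟩⟩
  · intro i j hij
    simpa using hij
  · intro i j
    simp
  · intro i j
    refine ⟨_, rfl, ?_⟩
    rw [quo_eq_quot]
    exact h2 (by simp)

end Vale.Agent.P235.H427
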