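import Vale.Agent.P235.H606.PDefs

/-! (VIT): a maximal family of disjoint bad balls, small ones first (helper427). -/

set_option autoImplicit false

namespace Vale.Agent.P235.H427

open SimpleGraph Vale.Agent.P235 Vale.Agent.P235.H606

/-- small first: a disjoint subfamily which meets every member in a member not larger -/
theorem greedy {V : Type} (R : V → ℝ) (A : V → Set V) (hne : ∀ v, v ∈ A v) (B : Finset V) :
    ∃ O : Finset V, O ⊆ B ∧ ((O : Set V).PairwiseDisjoint A) ∧
      ∀ v ∈ B, ∃ o ∈ O, R o ≤ R v ∧ ¬ Disjoint (A o) (A v) := by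
  classical
  induction hn : B.card using Nat.strong_induction_on generalizing B with
  | _ n ih =>
    rcases B.eq_empty_or_nonempty with rfl | hB
    · exact ⟨∅, by simp, by simp, by simp⟩
    obtain ⟨v₀, hv₀, hmax⟩ := B.exists_max_image R hB
    obtain ⟨O, hO, hd, hc⟩ := ih (B.erase v₀).card
      (by rw [← hn]; exact Finset.card_erase_lt_of_mem hv₀) (B.erase v₀) rfl
    by_cases h : ∃ o ∈ O, ¬ Disjoint (A o) (A v₀)
    · obtain ⟨o, ho, ho'⟩ := h
      refine ⟨O, hO.trans (Finset.erase_subset _ _), hd, fun v hv => ?_⟩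
      by_cases hvv : v = v₀
      · subst hvv
        exact ⟨o, ho, hmax o (Finset.mem_of_mem_erase (hO ho)), ho'⟩
      · exact hc v (Finset.mem_erase.2 ⟨hvv, hv⟩)
    · push Not at h
      refine ⟨insert v₀ O, ?_, ?_, fun v hv => ?_⟩
      · intro x hx
        rcases Finset.mem_insert.1 hx with rfl | hx
        · exact hv₀
        · exact Finset.mem_of_mem_erase (hO hx)
      · rw [Finset.coe_insert]
        refine hd.insert fun o ho _ => ?_
        exact (h o ho).symm
      · by_cases hvv : v = v₀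
        · subst hvv
          exact ⟨v, Finset.mem_insert_self _ _, le_rfl, fun hdis =>
            Set.disjoint_left.1 hdis (hne v) (hne v)⟩
        · obtain ⟨o, ho, h1, h2⟩ := hc v (Finset.mem_erase.2 ⟨hvv, hv⟩)
          exact ⟨o, Finset.mem_insert_of_mem ho, h1, h2⟩

/-- (VIT) -/
theorem vit : VitStmt := by
  intro V _ G ℓ P hc hℓ _
  classical
  have : Fintype V := Fintype.ofFinite V
  have hd := pathDist_isMet hc hℓ
  have h0 : ∀ x y, 0 ≤ pathDist G ℓ x y := pathDist_nonneg hℓ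
  -- bad vertices
  set B : Finset V := Finset.univ.filter fun v => ∃ x, P (ball G ℓ v (pathDist G ℓ v x)) with hB
  -- the smallest bad radius
  have hR : ∀ v, ∃ ρ : ℝ, 0 ≤ ρ ∧ (v ∈ B → P (ball G ℓ v ρ) ∧
      ∀ x, P (ball G ℓ v (pathDist G ℓ v x)) → ρ ≤ pathDist G ℓ v x) := by
    intro v
    by_cases hv : v ∈ B
    · obtain ⟨x, hx⟩ := (Finset.mem_filter.1 hv).2
      obtain ⟨x₀, hx₀, hmin⟩ := (Finset.univ.filter fun x =>
        P (ball G ℓ v (pathDist G ℓ v x))).exists_min_image (fun x => pathDist G ℓ v x)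
        ⟨x, by simpa using hx⟩
      refine ⟨pathDist G ℓ v x₀, h0 _ _, fun _ => ⟨by simpa using hx₀, fun y hy => ?_⟩⟩
      exact hmin y (by simpa using hy)
    · exact ⟨0, le_rfl, fun h => absurd h hv⟩
  choose R hR0 hR1 using hR
  obtain ⟨O, hO, hdis, hcov⟩ := greedy R (fun v => ball G ℓ v (R v))
    (fun v => show pathDist G ℓ v v ≤ R v by rw [hd.self]; exact hR0 v) B
  refine ⟨(O : Set V), R, fun o ho => ⟨hR0 o, (hR1 o (hO ho)).1⟩, hdis, fun v ρ hρ hfar hP => ?_⟩
  -- the bad ball is the ball through its farthest point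
  obtain ⟨x₀, hx₀, hmax⟩ := (Finset.univ.filter fun x =>
    pathDist G ℓ v x ≤ ρ).exists_max_image (fun x => pathDist G ℓ v x)
    ⟨v, by simpa [hd.self] using hρ⟩
  have hx₀' : pathDist G ℓ v x₀ ≤ ρ := by simpa using hx₀
  have hball : ball G ℓ v ρ = ball G ℓ v (pathDist G ℓ v x₀) := by
    ext y
    exact ⟨fun hy => hmax y (by simpa using (show pathDist G ℓ v y ≤ ρ from hy)),
      fun hy => le_trans (show pathDist G ℓ v y ≤ pathDist G ℓ v x₀ from hy) hx₀'⟩
  rw [hball] at hP
  have hvB : v ∈ B := by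
    rw [hB, Finset.mem_filter]
    exact ⟨Finset.mem_univ _, x₀, hP⟩
  have hRv : R v ≤ ρ := ((hR1 v hvB).2 x₀ hP).trans hx₀'
  obtain ⟨o, ho, h1, h2⟩ := hcov v hvB
  rw [Set.not_disjoint_iff] at h2
  obtain ⟨z, hz1, hz2⟩ := h2
  have hz1' : pathDist G ℓ o z ≤ R o := hz1
  have hz2' : pathDist G ℓ v z ≤ R v := hz2
  have h3 := hfar o ho
  have h4 := hd.tri v z o
  rw [hd.symm z o] at h4
  linarith [h0 v o]

end Vale.Agent.P235.H427
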