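import Vale.Agent.P235.H141.JDefs
import Vale.Agent.P235.H141.Mk
import Vale.Agent.P235.H56.MinTrans

/-!
# (N3') two adjacent vertices with the same three other neighbours (helper427)
-/

namespace Vale.Agent.P235.H427

open SimpleGraph Vale.Agent.P235.H134 Vale.Agent.P235.H56
open Vale.Agent.P235.H141
open Vale.Agent.P235.H341W (capG)

/-- a model of a connected graph off `X` is inside one component -/
theorem minor_off {V W : Type} {G : SimpleGraph V} {H : SimpleGraph W} {X : Set V}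
    (hH : H.Connected) (h : IsMinor H (G.induce Xᶜ)) :
    ∃ w, w ∉ X ∧ IsMinor H (G.induce (off G X w)) := by
  obtain ⟨μ, h1, h2, h3⟩ := h
  obtain ⟨a₀⟩ := hH.nonempty
  obtain ⟨⟨⟨w, hw⟩, hwa⟩⟩ := (h1 a₀).nonempty
  have hw' : w ∉ X := hw
  refine ⟨w, hw', ?_⟩
  -- reachability in `G.induce Xᶜ` gives membership in the component
  have hoff : ∀ (p q : (Xᶜ : Set V)), p.1 ∈ off G X w → (G.induce Xᶜ).Reachable p q →
      q.1 ∈ off G X w := by
    rintro p q hp ⟨c⟩
    induction c with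
    | nil => exact hp
    | @cons p q r hpq _ ih =>
      refine ih ?_
      rcases off_cl hp (show G.Adj p.1 q.1 from hpq) with h | h
      · exact h
      · exact absurd h q.2
  have hb : ∀ (a : W) (p q : (Xᶜ : Set V)), p ∈ μ a → q ∈ μ a → p.1 ∈ off G X w →
      q.1 ∈ off G X w := by
    intro a p q hp hq hpo
    refine hoff p q hpo ?_
    exact ((h1 a).preconnected ⟨p, hp⟩ ⟨q, hq⟩).map (Embedding.induce (μ a)).toHom
  have hall : ∀ a, ∀ p ∈ μ a, p.1 ∈ off G X w := by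
    intro a
    obtain ⟨c⟩ := hH.preconnected a₀ a
    have key : ∀ {a b : W} (c : H.Walk a b), (∀ p ∈ μ a, p.1 ∈ off G X w) →
        ∀ p ∈ μ b, p.1 ∈ off G X w := by
      intro a b c
      induction c with
      | nil => exact fun h => h
      | @cons a b d hab _ ih =>
        intro ha
        refine ih fun q hq => ?_
        obtain ⟨x, hx, y, hy, hxy⟩ := h3 a b hab
        refine hb b y q hy hq ?_
        rcases off_cl (ha x hx) (show G.Adj x.1 y.1 from hxy) with h | h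
        · exact h
        · exact absurd h y.2
    exact key c fun p hp => hb a₀ ⟨w, hw⟩ p hwa hp (off_self hw')
  refine ⟨fun a => {d | ∃ h : d.1 ∈ Xᶜ, (⟨d.1, h⟩ : (Xᶜ : Set V)) ∈ μ a}, fun a => ?_,
    fun a b hab => ?_, fun a b hab => ?_⟩
  · have := h1 a
    let f : μ a → {d : off G X w | ∃ h : d.1 ∈ Xᶜ, (⟨d.1, h⟩ : (Xᶜ : Set V)) ∈ μ a} :=
      fun p => ⟨⟨p.1.1, hall a p.1 p.2⟩, p.1.2, p.2⟩
    refine connected_of_map f ?_ ?_ this
    · rintro ⟨⟨d, hd⟩, h, hm⟩
      exact ⟨⟨⟨d, h⟩, hm⟩, rfl⟩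
    · intro p q hpq
      right
      exact hpq
  · rw [Set.disjoint_left]
    rintro d ⟨h, hm⟩ ⟨h', hm'⟩
    exact Set.disjoint_left.1 (h2 a b hab) hm hm'
  · obtain ⟨x, hx, y, hy, hxy⟩ := h3 a b hab
    exact ⟨⟨x.1, hall a x hx⟩, ⟨x.2, hx⟩, ⟨y.1, hall b y hy⟩, ⟨y.2, hy⟩, hxy⟩

theorem grid_conn {r : ℕ} (hr : 1 ≤ r) : (grid r).Connected := by
  obtain ⟨m, rfl⟩ : ∃ m, r = m + 1 := ⟨r - 1, by omega⟩
  exact (pathGraph_connected m).boxProd (pathGraph_connected m)

theorem hub_conn {n r : ℕ} (hr : 1 ≤ r) : (hub n r).Connected := by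
  have hg := grid_conn hr
  have h0 : ∀ (i : Fin n) (x y : Fin r × Fin r),
      (hub n r).Reachable (some (i, x)) (some (i, y)) := by
    intro i x y
    refine reachable_of_map (A := grid r) (fun z => some (i, z)) (fun z t hzt => Or.inr ?_)
      (hg.preconnected x y)
    show ((⊥ : SimpleGraph (Fin n)) □ grid r).Adj (i, z) (i, t)
    rw [boxProd_adj]
    exact Or.inr ⟨hzt, rfl⟩
  have h1 : ∀ v, (hub n r).Reachable v none := by
    rintro (_ | ⟨i, x⟩)
    · exact Reachable.refl _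
    · refine (h0 i x (⟨0, hr⟩, ⟨0, hr⟩)).trans (Adj.reachable ?_)
      show (⟨0, hr⟩, ⟨0, hr⟩) ∈ bd r
      exact Or.inl rfl
  haveI : Nonempty (Option (Fin n × (Fin r × Fin r))) := ⟨none⟩
  exact ⟨fun u v => (h1 u).trans (h1 v).symm⟩

theorem n3Grid_of (hMo : ModelStmt) : N3GridStmt := by
  intro V _ G a b c₁ c₂ c₃ r hr h3 hab ha hb h12 h13 h23 hm
  have hac : G.Adj a c₁ ∧ G.Adj a c₂ ∧ G.Adj a c₃ :=
    ⟨(ha _).2 (by tauto), (ha _).2 (by tauto), (ha _).2 (by tauto)⟩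
  have hbc : G.Adj b c₁ ∧ G.Adj b c₂ ∧ G.Adj b c₃ :=
    ⟨(hb _).2 (by tauto), (hb _).2 (by tauto), (hb _).2 (by tauto)⟩
  have hXeq : {x | x ≠ a ∧ x ≠ b ∧ x ≠ c₁ ∧ x ≠ c₂ ∧ x ≠ c₃} = ({a, b, c₁, c₂, c₃} : Set V)ᶜ := by
    ext x
    simp only [Set.mem_setOf_eq, Set.mem_compl_iff, Set.mem_insert_iff, Set.mem_singleton_iff,
      not_or]
  rw [hXeq] at hm
  obtain ⟨w, hw, hmD⟩ := minor_off (hub_conn hr) hm
  set X : Set V := {a, b, c₁, c₂, c₃} with hX
  set D := off G X w with hD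
  have hwD : w ∈ D := off_self hw
  have haX : a ∈ X := by simp [hX]
  have hbX : b ∈ X := by simp [hX]
  have hcX : c₁ ∈ X ∧ c₂ ∈ X ∧ c₃ ∈ X := by simp [hX]
  have hDX : ∀ v ∈ D, v ∉ X := fun v hv => off_not hv
  -- the neighbours of `D`
  have hN : ∀ u ∈ D, ∀ v, G.Adj u v → v ∈ D ∨ v = c₁ ∨ v = c₂ ∨ v = c₃ := by
    intro u hu v huv
    rcases off_cl hu huv with h | h
    · exact Or.inl h
    right
    rcases h with h | h | h | h | h
    · exfalso
      subst h
      refine hDX u hu ?_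
      rcases (ha u).1 huv.symm with h | h | h | h <;> rw [h]
      exacts [hbX, hcX.1, hcX.2.1, hcX.2.2]
    · exfalso
      subst h
      refine hDX u hu ?_
      rcases (hb u).1 huv.symm with h | h | h | h <;> rw [h]
      exacts [haX, hcX.1, hcX.2.1, hcX.2.2]
    · exact Or.inl h
    · exact Or.inr (Or.inl h)
    · exact Or.inr (Or.inr h)
  have haD : a ∉ D := fun h => hDX a h haX
  -- all three vertices `c` are neighbours of `D`
  have key : ∀ c p q : V, p ∈ X → q ∈ X → a ≠ p → a ≠ q →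
      (∀ u ∈ D, ∀ v, G.Adj u v → v ∈ D ∨ v = c ∨ v = p ∨ v = q) → ∃ u ∈ D, G.Adj u c := by
    intro c p q hp hq hap haq hN'
    by_contra hno
    push Not at hno
    rcases h3 p q D ⟨w, hwD⟩ (fun h => hDX p h hp) (fun h => hDX q h hq) (fun u hu v huv => by
      rcases hN' u hu v huv with h | h | h
      · exact Or.inl h
      · rw [h] at huv
        exact (hno u hu huv).elim
      · exact Or.inr h) a with h | h | h
    · exact haD h
    · exact hap h
    · exact haq h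
  have k1 := key c₁ c₂ c₃ hcX.2.1 hcX.2.2 hac.2.1.ne hac.2.2.ne hN
  have k2 := key c₂ c₁ c₃ hcX.1 hcX.2.2 hac.1.ne hac.2.2.ne
    fun u hu v huv => by have := hN u hu v huv; tauto
  have k3 := key c₃ c₁ c₂ hcX.1 hcX.2.1 hac.1.ne hac.2.1.ne
    fun u hu v huv => by have := hN u hu v huv; tauto
  have hDc : (G.induce D).Connected := off_conn hw
  have dj : ∀ v ∈ X, Disjoint ({v} : Set V) D := fun v hv =>
    Set.disjoint_singleton_left.2 fun h => hDX v h hv
  have ne1 := hac.1.ne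
  have ne2 := hac.2.1.ne
  have ne3 := hac.2.2.ne
  have ne4 := hbc.1.ne
  have ne5 := hbc.2.1.ne
  have ne6 := hbc.2.2.ne
  refine hMo V G r (Sum.elim ![{a}, {b}, D] ![{c₁}, {c₂}, {c₃}]) hr ?_ ?_ ?_ ⟨Sum.inl 2, hmD⟩
  · rintro (i | i)
    · fin_cases i
      exacts [single_conn a, single_conn b, hDc]
    · fin_cases i
      exacts [single_conn _, single_conn _, single_conn _]
  · rintro (i | i) (j | j) hij
    · fin_cases i <;> fin_cases j <;> first | exact (hij rfl).elim | skip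
      exacts [Set.disjoint_singleton.2 hab, dj a haX, Set.disjoint_singleton.2 hab.symm, dj b hbX,
        (dj a haX).symm, (dj b hbX).symm]
    · fin_cases i <;> fin_cases j
      exacts [Set.disjoint_singleton.2 hac.1.ne, Set.disjoint_singleton.2 hac.2.1.ne,
        Set.disjoint_singleton.2 hac.2.2.ne, Set.disjoint_singleton.2 hbc.1.ne,
        Set.disjoint_singleton.2 hbc.2.1.ne, Set.disjoint_singleton.2 hbc.2.2.ne,
        (dj _ hcX.1).symm, (dj _ hcX.2.1).symm, (dj _ hcX.2.2).symm]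
    · fin_cases i <;> fin_cases j
      exacts [Set.disjoint_singleton.2 hac.1.ne.symm, Set.disjoint_singleton.2 hbc.1.ne.symm,
        dj _ hcX.1, Set.disjoint_singleton.2 hac.2.1.ne.symm,
        Set.disjoint_singleton.2 hbc.2.1.ne.symm, dj _ hcX.2.1,
        Set.disjoint_singleton.2 hac.2.2.ne.symm, Set.disjoint_singleton.2 hbc.2.2.ne.symm,
        dj _ hcX.2.2]
    · fin_cases i <;> fin_cases j <;> first | exact (hij rfl).elim | skip
      exacts [Set.disjoint_singleton.2 h12, Set.disjoint_singleton.2 h13,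
        Set.disjoint_singleton.2 h12.symm, Set.disjoint_singleton.2 h23,
        Set.disjoint_singleton.2 h13.symm, Set.disjoint_singleton.2 h23.symm]
  · have kk : ∀ i j : Fin 3, ∃ x ∈ (![{a}, {b}, D] : Fin 3 → Set V) i,
        ∃ y ∈ (![{c₁}, {c₂}, {c₃}] : Fin 3 → Set V) j, G.Adj x y := by
      intro i j
      have kk : ∀ c, (∃ u ∈ D, G.Adj u c) → ∃ x ∈ D, ∃ y ∈ ({c} : Set V), G.Adj x y :=
        fun c ⟨u, hu, h⟩ => ⟨u, hu, c, rfl, h⟩
      fin_cases i <;> fin_cases j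
      exacts [⟨a, rfl, c₁, rfl, hac.1⟩, ⟨a, rfl, c₂, rfl, hac.2.1⟩, ⟨a, rfl, c₃, rfl, hac.2.2⟩,
        ⟨b, rfl, c₁, rfl, hbc.1⟩, ⟨b, rfl, c₂, rfl, hbc.2.1⟩, ⟨b, rfl, c₃, rfl, hbc.2.2⟩,
        kk _ k1, kk _ k2, kk _ k3]
    rintro (i | i) (j | j) hij
    · simp [completeBipartiteGraph] at hij
    · exact kk i j
    · obtain ⟨x, hx, y, hy, h⟩ := kk j i
      exact ⟨y, hy, x, hx, h.symm⟩
    · simp [completeBipartiteGraph] at hij

end Vale.Agent.P235.H427
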