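import Vale.Agent.P235.H750.VDefs
import Vale.Agent.P235.H786.Ball

/-!
P235 (helper427 for helper750).  Graphs all of whose blocks are planar or `K_{3,3}` are
rooted-good at every vertex (`blockSum_rfree`); `BlockStmt` from the rows (`blk_of`).
-/

set_option autoImplicit false

namespace Vale.Agent.P235.H427

open SimpleGraph Vale.Agent.P235 Vale.Agent.P235.H134 Vale.Agent.P235.H606
open Vale.Agent.P235.H750

/-- the blocks allowed in `BlockStmt` -/
abbrev PlanarOrK33 (W : Type) (H : SimpleGraph W) : Prop :=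
  Finite W ∧ H.Connected ∧
    (Planar H ∨ Nonempty (H ≃g completeBipartiteGraph (Fin 3) (Fin 3)))

theorem conn_single' {V : Type} (G : SimpleGraph V) (a : V) : (G.induce {a}).Connected := by
  haveI : Nonempty ({a} : Set V) := ⟨⟨a, rfl⟩⟩
  refine ⟨fun x y => ?_⟩
  obtain rfl : x = y := Subtype.ext ((show x.1 = a from x.2).trans (show y.1 = a from y.2).symm)
  exact Reachable.refl _

/-- rooted minors compose -/
theorem rminor_trans' {W X V : Type} {H : SimpleGraph W} {K : SimpleGraph X} {G : SimpleGraph V}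
    {h : W} {t : X} {v : V} (h1 : RMinor H h K t) (h2 : RMinor K t G v) : RMinor H h G v := by
  obtain ⟨μ, m1, m2, m3, m4⟩ := h1
  obtain ⟨ν, n1, n2, n3, n4⟩ := h2
  refine ⟨fun a => ⋃ x ∈ μ a, ν x, ?_, ?_, ?_, Set.mem_biUnion m4 n4⟩
  · intro a
    have hT : ∀ x ∈ μ a, ν x ⊆ ⋃ x ∈ μ a, ν x := fun x hx => Set.subset_biUnion_of_mem hx
    obtain ⟨⟨x0, hx0⟩⟩ := (m1 a).nonempty
    obtain ⟨⟨v0, hv0⟩⟩ := (n1 x0).nonempty
    have : Nonempty (⋃ x ∈ μ a, ν x : Set V) := ⟨⟨v0, hT x0 hx0 hv0⟩⟩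
    refine ⟨fun u v => ?_⟩
    obtain ⟨u, hu⟩ := u
    obtain ⟨v, hv⟩ := v
    obtain ⟨x, hx, hux⟩ := Set.mem_iUnion₂.1 hu
    obtain ⟨y, hy, hvy⟩ := Set.mem_iUnion₂.1 hv
    obtain ⟨w⟩ := (m1 a).preconnected ⟨x, hx⟩ ⟨y, hy⟩
    exact H56.reachable_union n1 n3 hT w u v hux hvy
  · intro a b hab
    rw [Set.disjoint_left]
    intro z hz hz'
    obtain ⟨x, hx, hzx⟩ := Set.mem_iUnion₂.1 hz
    obtain ⟨y, hy, hzy⟩ := Set.mem_iUnion₂.1 hz'
    by_cases hxy : x = y
    · subst hxy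
      exact Set.disjoint_left.1 (m2 a b hab) hx hy
    · exact Set.disjoint_left.1 (n2 x y hxy) hzx hzy
  · intro a b hab
    obtain ⟨x, hx, y, hy, hxy⟩ := m3 a b hab
    obtain ⟨p, hp, q, hq, hpq⟩ := n3 x y hxy
    exact ⟨p, Set.mem_iUnion₂.2 ⟨x, hx, hp⟩, q, Set.mem_iUnion₂.2 ⟨y, hy, hq⟩, hpq⟩

/-- `RFree` passes to rooted minors -/
theorem rfree_mono {W X : Type} {H : SimpleGraph W} {K : SimpleGraph X} {h : W} {t : X}
    (h1 : RMinor H h K t) (h2 : RFree K t) : RFree H h := by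
  intro r
  obtain ⟨C, hC⟩ := h2 r
  exact ⟨C, fun V _ G b hG hr hno => hC V G b hG hr fun h3 => hno (rminor_trans' h1 h3)⟩

/-- an isomorphism is a rooted minor -/
theorem rminor_iso {W X : Type} {H : SimpleGraph W} {K : SimpleGraph X} (e : H ≃g K) (h : W) :
    RMinor H h K (e h) := by
  refine ⟨fun a => {e a}, fun a => conn_single' K _, fun a b hab => ?_, fun a b hab => ?_, rfl⟩
  · rw [Set.disjoint_singleton]
    exact fun h => hab (e.injective h)
  · exact ⟨e a, rfl, e b, rfl, e.map_rel_iff.2 hab⟩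

/-- two connected sets with a common vertex which cover -/
theorem conn_glue {W : Type} {H : SimpleGraph W} {S T : Set W} {v : W} (hv : v ∈ S) (hv' : v ∈ T)
    (hST : S ∪ T = Set.univ) (hS : (H.induce S).Connected) (hT : (H.induce T).Connected) :
    H.Connected := by
  have : Nonempty W := ⟨v⟩
  have key : ∀ x, H.Reachable v x := by
    intro x
    have hx : x ∈ S ∪ T := hST ▸ Set.mem_univ x
    rcases hx with hx | hx
    · exact (hS.preconnected ⟨v, hv⟩ ⟨x, hx⟩).map (SimpleGraph.Embedding.induce S).toHom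
    · exact (hT.preconnected ⟨v, hv'⟩ ⟨x, hx⟩).map (SimpleGraph.Embedding.induce T).toHom
  exact ⟨fun x y => (key x).symm.trans (key y)⟩

/-- **all roots**: blocks which are planar or `K_{3,3}` -/
theorem blockSum_rfree (hOne : OneStmt) (h33 : RK33Stmt) (hGrid : RGridStmt) (hP : PlanarStmt)
    {W : Type} {H : SimpleGraph W} (h : BlockSum PlanarOrK33 H) :
    Finite W ∧ H.Connected ∧ ∀ h, RFree H h := by
  induction h with
  | @base W H h =>
    obtain ⟨hW, hc, hpl | ⟨⟨e⟩⟩⟩ := h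
    · refine ⟨hW, hc, fun h => ?_⟩
      obtain ⟨r, -, μ, m1, m2, m3⟩ := hP W H hpl
      obtain ⟨x, hx⟩ := (m1 h).nonempty
      exact rfree_mono ⟨μ, m1, m2, m3, hx⟩ (hGrid r x)
    · exact ⟨hW, hc, fun h => rfree_mono (rminor_iso e h) (h33 (e h))⟩
  | @glue W H S T v hST hST' hadj _ _ ihS ihT =>
    obtain ⟨hSf, hSc, hSr⟩ := ihS
    obtain ⟨hTf, hTc, hTr⟩ := ihT
    have hvS : v ∈ S := (hST'.symm ▸ Set.mem_singleton v : v ∈ S ∩ T).1
    have hvT : v ∈ T := (hST'.symm ▸ Set.mem_singleton v : v ∈ S ∩ T).2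
    have hW : Finite W := by
      rw [← Set.finite_univ_iff, ← hST]
      exact (Set.toFinite S).union (Set.toFinite T)
    refine ⟨hW, conn_glue hvS hvT hST hSc hTc, fun h => ?_⟩
    have hh : h ∈ S ∪ T := hST ▸ Set.mem_univ h
    rcases hh with hh | hh
    · exact hOne W H S T v hvS hvT hST hST' hadj hSc hTc (hTr _) ⟨h, hh⟩ (hSr _)
    · exact hOne W H T S v hvT hvS (by rw [Set.union_comm]; exact hST)
        (by rw [Set.inter_comm]; exact hST') (fun a b ha hb hab => hadj b a hb ha hab.symm)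
        hTc hSc (hSr _) ⟨h, hh⟩ (hTr _)

/-- rooted-good at one vertex: good -/
theorem free_of_rfree' {W : Type} [Finite W] {H : SimpleGraph W} {h : W} (hR : RFree H h) :
    ∃ C : ℝ, Free H C := by
  obtain ⟨C, hC⟩ := hR (Nat.card W)
  refine ⟨C, fun V _ G hG hno => ?_⟩
  obtain ⟨b⟩ := hG.nonempty
  exact hC V G b hG (H786.noK_of le_rfl hno) fun ⟨μ, m1, m2, m3, _⟩ => hno ⟨μ, m1, m2, m3⟩

/-- good components: good -/
theorem free_of_comps (hC : CompStmt) {W : Type} [Finite W] {H : SimpleGraph W}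
    (h : ∀ c : H.ConnectedComponent, ∃ C : ℝ, Free (H.induce c.supp) C) :
    ∃ C : ℝ, Free H C := by
  choose Q hQ using h
  have : Finite H.ConnectedComponent := Quot.finite _
  obtain ⟨B, hB⟩ := (Set.finite_range Q).bddAbove
  obtain ⟨K, -, hK⟩ := hC
  refine ⟨_, hK W H (max 1 B) (le_max_left _ _) fun c => ?_⟩
  intro V _ G hG hno
  exact (hQ c V G hG hno).mono ((hB ⟨c, rfl⟩).trans (le_max_right _ _))

/-- **[BLK]** -/
theorem blk_of (hOne : OneStmt) (h33 : RK33Stmt) (hGrid : RGridStmt) (hP : PlanarStmt)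
    (hC : CompStmt) : BlockStmt := by
  intro W _ H hH
  refine free_of_comps hC fun c => ?_
  obtain ⟨hf, hc, hr⟩ := blockSum_rfree hOne h33 hGrid hP (hH c)
  obtain ⟨h⟩ := hc.nonempty
  exact free_of_rfree' (hr h)

end Vale.Agent.P235.H427
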