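import Vale.Agent.P235.H427.Pers
import Vale.Agent.P235.H648.Ncv

/-! (INIT) and (V2) from (STEP) (helper427 for helper830). -/

set_option autoImplicit false

namespace Vale.Agent.P235.H427

open SimpleGraph Vale.Agent.P235.H134 Vale.Agent.P235.H56 Vale.Agent.P235.H830

theorem Mod.nonempty {V : Type} {G : SimpleGraph V} {μ : Fin 3 ⊕ Fin 3 → Set V} (h : Mod G μ)
    (a : Fin 3 ⊕ Fin 3) : (μ a).Nonempty := by
  obtain ⟨x⟩ := (h.conn a).nonempty
  exact ⟨x.1, x.2⟩

/-- **[INIT]** -/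
theorem init : InitStmt := by
  intro V _ G z μ hμ hL
  classical
  by_cases hz : ∃ a, z ∈ μ a
  · exact ⟨μ, hμ, hz, fun b => subset_rfl⟩
  push Not at hz
  -- a maximal connected set off the model which contains `z`
  have hfin : ({S : Set V | z ∈ S ∧ (∀ a, Disjoint (μ a) S) ∧ (G.induce S).Connected}).Finite :=
    Set.toFinite _
  have hne' : ({S : Set V | z ∈ S ∧ (∀ a, Disjoint (μ a) S) ∧
      (G.induce S).Connected}).Nonempty :=
    ⟨{z}, rfl, fun a => Set.disjoint_singleton_right.2 (hz a), H648.conn_single z⟩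
  obtain ⟨X, ⟨hzX, hXμ, hXc⟩, hmax⟩ := hfin.exists_maximal hne'
  have hout : ∀ v ∈ nbr G X, ∃ a, v ∈ μ a := by
    rintro v ⟨hvX, x, hx, hxv⟩
    by_contra hno
    push Not at hno
    have := hmax (y := insert v X) ⟨Or.inr hzX, fun a => Set.disjoint_insert_right.2
      ⟨hno a, hXμ a⟩, H648.conn_ins hXc hx hxv⟩ (Set.subset_insert v X)
    exact hvX (this (Set.mem_insert v X))
  obtain ⟨v, hv⟩ : (nbr G X).Nonempty := by
    by_contra h
    rw [Set.not_nonempty_iff_eq_empty] at h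
    obtain ⟨a, ha⟩ := hL X hzX (by simp [h])
    obtain ⟨w, hw⟩ := Mod.nonempty hμ a
    exact Set.disjoint_left.1 (hXμ a) hw (ha hw)
  obtain ⟨a, hva⟩ := hout v hv
  obtain ⟨-, x, hx, hxv⟩ := hv
  have hle : μ ≤ Function.update μ a (μ a ∪ X) := by
    intro c
    by_cases hc : c = a
    · subst hc
      rw [Function.update_self]
      exact Set.subset_union_left
    · rw [Function.update_of_ne hc]
  refine ⟨Function.update μ a (μ a ∪ X), ⟨?_, ?_, ?_⟩, ⟨a, ?_⟩, hle⟩
  · intro c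
    by_cases hc : c = a
    · subst hc
      rw [Function.update_self]
      exact H578.conn_union (hμ.conn c) hXc ⟨v, hva, x, hx, hxv.symm⟩
    · rw [Function.update_of_ne hc]
      exact hμ.conn c
  · intro c d hcd
    by_cases hc : c = a
    · subst hc
      rw [Function.update_self, Function.update_of_ne (Ne.symm hcd), Set.disjoint_union_left]
      exact ⟨hμ.disj _ _ hcd, (hXμ d).symm⟩
    · rw [Function.update_of_ne hc]
      by_cases hd : d = a
      · subst hd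
        rw [Function.update_self, Set.disjoint_union_right]
        exact ⟨hμ.disj _ _ hcd, hXμ c⟩
      · rw [Function.update_of_ne hd]
        exact hμ.disj _ _ hcd
  · intro c d hcd
    obtain ⟨p, hp, q, hq, hpq⟩ := hμ.adj c d hcd
    exact ⟨p, hle c hp, q, hle d hq, hpq⟩
  · rw [Function.update_self]
    exact Or.inr hzX

/-- two more indices -/
theorem two_more (a : Fin 3 ⊕ Fin 3) : ∃ b c : Fin 3 ⊕ Fin 3, b ≠ c ∧ b ≠ a ∧ c ≠ a := by
  rcases a with a | a
  · exact ⟨Sum.inr 0, Sum.inr 1, by simp, by simp, by simp⟩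
  · exact ⟨Sum.inl 0, Sum.inl 1, by simp, by simp, by simp⟩

/-- **[V2]** -/
theorem v2_of (hStep : StepStmt) : V2Stmt := by
  intro V _ G z μ hμ hL
  have key : ∀ (n : ℕ) (ν : Fin 3 ⊕ Fin 3 → Set V) (a : Fin 3 ⊕ Fin 3), (ν a).ncard = n →
      Mod G ν → Lkd G z ν → z ∈ ν a →
      ∃ (ν : Fin 3 ⊕ Fin 3 → Set V) (a : Fin 3 ⊕ Fin 3), Mod G ν ∧ ν a = {z} := by
    intro n
    induction n using Nat.strong_induction_on with
    | _ n ih =>
      intro ν a hn hν hLν hz
      by_cases hsing : ν a = {z}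
      · exact ⟨ν, a, hν, hsing⟩
      obtain ⟨ν', hν', hνa, hle, hsat⟩ := H648.absorb V G ν a hν
      obtain ⟨b, c, hbc, hba, hca⟩ := two_more a
      have hL' : Lkd G z ν' := pers V G z ν ν' hν hν' hLν
        ⟨a, hνa ▸ hz, b, c, hbc, hba, hca, ⟨b, hle b⟩, c, hle c⟩
      obtain ⟨ν'', b', hν'', hzb', hlt, c₁, c₂, hc, hc1, hc2, hd1, hd2⟩ :=
        hStep V G z ν' a hν' hL' (hνa ▸ hz) (by rw [hνa]; exact hsing) hsat
      have hL'' : Lkd G z ν'' := pers V G z ν' ν'' hν' hν'' hL'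
        ⟨b', hzb', c₁, c₂, hc, hc1, hc2, hd1, hd2⟩
      exact ih _ (by rw [hνa, hn] at hlt; exact hlt) ν'' b' rfl hν'' hL'' hzb'
  obtain ⟨ν, hν, ⟨a, hza⟩, hle⟩ := init V G z μ hμ hL
  obtain ⟨b, c, hbc, hba, hca⟩ := two_more a
  exact key _ ν a rfl hν (pers V G z μ ν hμ hν hL ⟨a, hza, b, c, hbc, hba, hca, ⟨b, hle b⟩, c,
    hle c⟩) hza

end Vale.Agent.P235.H427
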