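import Vale.Agent.P235.H830.QDefs

/-! (PERS): `Lkd` persists (helper427 for helper830). -/

set_option autoImplicit false

namespace Vale.Agent.P235.H427

open SimpleGraph Vale.Agent.P235.H134 Vale.Agent.P235.H56 Vale.Agent.P235.H830

/-- a connected set with a vertex in `X` and a vertex outside of `X` meets `nbr G X` -/
theorem meets_nbr {V : Type} {G : SimpleGraph V} {S X : Set V} (hS : (G.induce S).Connected)
    {x y : V} (hx : x ∈ S) (hxX : x ∈ X) (hy : y ∈ S) (hyX : y ∉ X) : ∃ v ∈ S, v ∈ nbr G X := by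
  obtain ⟨p⟩ := hS.preconnected ⟨x, hx⟩ ⟨y, hy⟩
  obtain ⟨d, -, h1, h2⟩ := p.exists_boundary_dart {s : S | s.1 ∈ X} hxX hyX
  exact ⟨d.snd.1, d.snd.2, h2, d.fst.1, h1, d.adj⟩

/-- three vertices are more than two -/
theorem three {V : Type} [Finite V] {S : Set V} (hS : S.ncard ≤ 2) (f : Fin 3 → V)
    (hf : Function.Injective f) (h : ∀ k, f k ∈ S) : False := by
  have h1 : (Set.range f).ncard ≤ S.ncard :=
    Set.ncard_le_ncard (Set.range_subset_iff.2 h) (Set.toFinite _)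
  have h2 : (Set.range f).ncard = 3 := by
    rw [← Set.image_univ, Set.ncard_image_of_injective _ hf, Set.ncard_univ]
    simp
  omega

theorem side_cases (i j : Fin 3 ⊕ Fin 3) : K33.Adj i j ∨ ∃ o : Fin 3 → Fin 3 ⊕ Fin 3,
    Function.Injective o ∧ ∀ k, K33.Adj i (o k) ∧ K33.Adj j (o k) := by
  rcases i with i | i <;> rcases j with j | j
  · exact Or.inr ⟨Sum.inr, Sum.inr_injective, fun k => by simp [K33]⟩
  · exact Or.inl (by simp [K33])
  · exact Or.inl (by simp [K33])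
  · exact Or.inr ⟨Sum.inl, Sum.inl_injective, fun k => by simp [K33]⟩

theorem pers_aux {V : Type} [Finite V] {G : SimpleGraph V} {μ : Fin 3 ⊕ Fin 3 → Set V}
    (hμ : Mod G μ) {X N : Set V} (hX : (nbr G X).ncard ≤ 2) {i b' : Fin 3 ⊕ Fin 3}
    (hi : μ i ⊆ X) (hN : (G.induce N).Connected) (hNX : ¬ N ⊆ X) (hb : μ b' ⊆ N)
    (hd : ∀ v ∈ N, v ∉ nbr G X) : False := by
  have hNX' : ∀ v ∈ N, v ∉ X := by
    intro v hv hvX
    obtain ⟨y, hy, hyX⟩ := Set.not_subset.1 hNX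
    obtain ⟨w, hw, hw'⟩ := meets_nbr hN hv hvX hy hyX
    exact hd w hw hw'
  rcases side_cases i b' with h | ⟨o, ho, h⟩
  · obtain ⟨x, hx, y, hy, hxy⟩ := hμ.adj i b' h
    exact hd y (hb hy) ⟨hNX' y (hb hy), x, hi hx, hxy⟩
  · have key : ∀ k, ∃ v ∈ μ (o k), v ∈ nbr G X := by
      intro k
      obtain ⟨x, hx, u, hu, hxu⟩ := hμ.adj i (o k) (h k).1
      obtain ⟨y, hy, w, hw, hyw⟩ := hμ.adj b' (o k) (h k).2
      have hwX : w ∉ X := fun hwX => hd y (hb hy) ⟨hNX' y (hb hy), w, hwX, hyw.symm⟩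
      by_cases huX : u ∈ X
      · exact meets_nbr (hμ.conn (o k)) hu huX hw hwX
      · exact ⟨u, hu, huX, x, hi hx, hxu⟩
    choose f hf hf' using key
    refine three hX f (fun k l hkl => ?_) hf'
    by_contra hne
    exact Set.disjoint_left.1 (hμ.disj (o k) (o l) fun h => hne (ho h)) (hf k) (hkl ▸ hf l)

theorem pers : PersStmt := by
  rintro V _ G z μ ν hμ hν hL ⟨a, hza, b, c, hbc, hba, hca, ⟨b', hb'⟩, c', hc'⟩ X hzX hX
  by_contra hno
  push Not at hno
  obtain ⟨i, hi⟩ := hL X hzX hX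
  obtain ⟨y, hy, hyX⟩ := Set.not_subset.1 (hno a)
  obtain ⟨v, hv, hv'⟩ := meets_nbr (hν.conn a) hza hzX hy hyX
  by_cases h1 : ∃ p ∈ ν b, p ∈ nbr G X
  · by_cases h2 : ∃ q ∈ ν c, q ∈ nbr G X
    · obtain ⟨p, hp, hp'⟩ := h1
      obtain ⟨q, hq, hq'⟩ := h2
      have hvp : v ≠ p := fun h => Set.disjoint_left.1 (hν.disj b a hba) hp (h ▸ hv)
      have hvq : v ≠ q := fun h => Set.disjoint_left.1 (hν.disj c a hca) hq (h ▸ hv)
      have hpq : p ≠ q := fun h => Set.disjoint_left.1 (hν.disj b c hbc) hp (h ▸ hq)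
      refine three hX ![v, p, q] ?_ ?_
      · intro k l hkl
        fin_cases k <;> fin_cases l <;> simp_all
      · intro k
        fin_cases k <;> simp_all
    · push Not at h2
      exact pers_aux hμ hX hi (hν.conn c) (hno c) hc' h2
  · push Not at h1
    exact pers_aux hμ hX hi (hν.conn b) (hno b) hb' h1

end Vale.Agent.P235.H427
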