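import Vale.Agent.P235.H427.Blk
import Vale.Agent.P235.H638.RGrid
import Vale.Agent.P235.H953.Nest
import Vale.Agent.P235.H536Q.VitS
import Vale.Agent.P235.H252.Spa
import Vale.Agent.P235.H750.Ret
import Vale.Agent.P235.H750.Core
import Vale.Agent.P235.H222.Cmp
import Vale.Agent.P235.H12.Plug
import Vale.Agent.P235.H578.OneAsm
import Vale.Agent.P235.H578.GridFree
import Vale.Agent.P235.H447.OneB
import Vale.Agent.P235.H205.Grid.PlanarStmt
import Vale.Agent.P235.H830.Final
import Vale.Agent.P235.H638.MonoQ
import Vale.Agent.P235.H56.Bound3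

/-!
P235 (helper427 for helper750, helper56, helper606).  `BlockStmt` with everything plugged in; the
final class of excluded minors: in each component all blocks are planar or `K_{3,3}`, except one
part, a minor of some `Q r`; closed under minors.
-/

set_option autoImplicit false

namespace Vale.Agent.P235.H427

open SimpleGraph hiding Free
open Vale.Agent.P235 Vale.Agent.P235.H134 Vale.Agent.P235.H606 Vale.Agent.P235.H750
open Vale.Agent.P235.H56 (K33 Conn3)

theorem nestStmt : NestStmt :=
  H953.nest H536Q.vitS (H252.spa H750.retStmt H222.cmp) H12.varStmt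

theorem oneStmt : OneStmt := H578.one_of nestStmt (H578.oneA nestStmt) H447.oneB

/-- **BLOCK** -/
theorem blockStmt : BlockStmt :=
  blk_of oneStmt H638.rK33 H638.rGrid H205.planar H12.compStmt

/-- a minor of a graph `T` which is built from one minor of some `Q r` by gluing, at vertices, one
after the other, connected graphs all of whose blocks are planar or `K_{3,3}` -/
def CorePiece {W : Type} (H : SimpleGraph W) : Prop :=
  ∃ (X : Type) (_ : Finite X) (T : SimpleGraph X),
    Cored (fun _ H' => ∃ r : ℕ, IsMinor H' (H830.Q r)) (fun _ H' => BlockSum PlanarOrK33 H') T ∧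
      IsMinor H T

theorem corePiece_free {W : Type} {H : SimpleGraph W} (h : CorePiece H) :
    ∃ K : ℝ, 0 ≤ K ∧ Free H K := by
  obtain ⟨X, hX, T, hT, hm⟩ := h
  obtain ⟨C, hC⟩ := cored_free nestStmt (H578.oneA nestStmt) H447.oneB
    (S0 := fun _ H' => ∃ r : ℕ, IsMinor H' (H830.Q r))
    (B := fun _ H' => BlockSum PlanarOrK33 H')
    (fun W' _ H' h => by
      obtain ⟨r, hr⟩ := h
      obtain ⟨K, -, hK⟩ := H56.q_free H830.sPrime H638.monoQ r
      exact ⟨K, fun V _ G hc hno => (hK V G hc fun hj => hno (H56.minor_trans hr hj)).2⟩)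
    (fun W' _ H' h =>
      (blockSum_rfree oneStmt H638.rK33 H638.rGrid H205.planar h).2) hT hX
  refine ⟨max C 0, le_max_right _ _, fun V _ G hG hno => ?_⟩
  exact (hC V G hG fun hT => hno (H56.minor_trans hm hT)).mono (le_max_left _ _)

theorem corePiece_comps {W : Type} [Finite W] {H : SimpleGraph W}
    (hH : ∀ c : H.ConnectedComponent, CorePiece (H.induce c.supp)) :
    ∃ K : ℝ, 0 ≤ K ∧ Free H K := by
  obtain ⟨K, hK⟩ := free_of_comps H12.compStmt (H := H) fun c => by
    obtain ⟨K, -, hK⟩ := corePiece_free (hH c)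
    exact ⟨K, hK⟩
  refine ⟨max K 0, le_max_right _ _, fun V _ G hG hno => ?_⟩
  exact (hK V G hG hno).mono (le_max_left _ _)

end Vale.Agent.P235.H427
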