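import Vale.Agent.P235.H56.RDefs
import Vale.Agent.P235.H638.MonoQ
import Vale.Agent.P235.H638.RGrid

/-!
# (COV) whichever vertex of `Q s` is the root (helper427)
-/

set_option autoImplicit false

namespace Vale.Agent.P235.H427.Cov

open SimpleGraph hiding Free
open Vale.Agent.P235 Vale.Agent.P235.H134 Vale.Agent.P235.H56 Vale.Agent.P235.H141
open Vale.Agent.P235.H830 Vale.Agent.P235.H638
open Vale.Agent.P235.H750 (RMinor)

/-- a rooted minor from a map with a centre in every fibre and a descent to the centre -/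
theorem rm_of_desc {V W : Type} {G : SimpleGraph V} {H : SimpleGraph W} (F : V → W) (c : W → V)
    (m : V → ℕ) (hc : ∀ a, F (c a) = a)
    (hd : ∀ y, y ≠ c (F y) → ∃ z, F z = F y ∧ G.Adj y z ∧ m z < m y)
    (hadj : ∀ a b, H.Adj a b → ∃ x y, F x = a ∧ F y = b ∧ G.Adj x y) {k : V} {h : W}
    (hk : F k = h) : RMinor H h G k := by
  refine ⟨fun a => F ⁻¹' {a}, fun a => ?_, fun a b hab => ?_, fun a b hab => ?_, hk⟩
  · have key : ∀ n y (hy : y ∈ F ⁻¹' {a}), m y ≤ n →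
        (G.induce (F ⁻¹' {a})).Reachable ⟨y, hy⟩ ⟨c a, hc a⟩ := by
      intro n
      induction n with
      | zero =>
        intro y hy hn
        by_cases hyc : y = c a
        · subst hyc
          exact Reachable.refl _
        · have hy' : F y = a := hy
          obtain ⟨z, _, _, hz⟩ := hd y (by rw [hy']; exact hyc)
          omega
      | succ n ih =>
        intro y hy hn
        by_cases hyc : y = c a
        · subst hyc
          exact Reachable.refl _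
        · have hy' : F y = a := hy
          obtain ⟨z, hz1, hz2, hz⟩ := hd y (by rw [hy']; exact hyc)
          have hz' : z ∈ F ⁻¹' {a} := hz1.trans hy'
          have h1 : (G.induce (F ⁻¹' {a})).Adj ⟨y, hy⟩ ⟨z, hz'⟩ := hz2
          exact h1.reachable.trans (ih z hz' (by omega))
    exact conn_star (c a) (hc a) fun y hy => key (m y) y hy le_rfl
  · rw [Set.disjoint_left]
    intro p hp hp'
    exact hab (hp.symm.trans hp')
  · obtain ⟨x, y, hx, hy, hxy⟩ := hadj a b hab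
    exact ⟨x, hx, y, hy, hxy⟩

theorem rm_of_iso {V W : Type} {G : SimpleGraph V} {H : SimpleGraph W} (e : H ≃g G) {k : V}
    {h : W} (hk : e h = k) : RMinor H h G k := by
  subst hk
  refine ⟨fun a => {e a}, fun a => conn_single (e a) rfl, fun a b hab => ?_,
    fun a b hab => ⟨e a, rfl, e b, rfl, e.map_adj_iff.2 hab⟩, rfl⟩
  rw [Set.disjoint_singleton]
  exact fun h => hab (e.injective h)

theorem rm_trans {W X V : Type} {H : SimpleGraph W} {K : SimpleGraph X} {G : SimpleGraph V}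
    {h : W} {t : X} {v : V} (h1 : RMinor H h K t) (h2 : RMinor K t G v) : RMinor H h G v :=
  rminor_trans (H := H) (K := K) (G := G) h1 h2

/-- to check a symmetric property on the edges of `Q r`, `∃` form -/
theorem Q_ind' {r : ℕ} {V : Type} {G : SimpleGraph V}
    {F : V → ((Fin 3 ⊕ Fin 2) ⊕ (Fin r × Fin r))}
    (h1 : ∀ i j : Fin 3, i ≠ j → ∃ x y, F x = Sum.inl (Sum.inl i) ∧ F y = Sum.inl (Sum.inl j) ∧
      G.Adj x y)
    (h2 : ∀ (i : Fin 3) (j : Fin 2), ∃ x y, F x = Sum.inl (Sum.inl i) ∧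
      F y = Sum.inl (Sum.inr j) ∧ G.Adj x y)
    (h3 : ∀ (i : Fin 3) (x : Fin r × Fin r), x ∈ side r i → ∃ y z, F y = Sum.inl (Sum.inl i) ∧
      F z = Sum.inr x ∧ G.Adj y z)
    (h4 : ∀ x y : Fin r × Fin r, (grid r).Adj x y → ∃ z w, F z = Sum.inr x ∧ F w = Sum.inr y ∧
      G.Adj z w) :
    ∀ a b, (Q r).Adj a b → ∃ x y, F x = a ∧ F y = b ∧ G.Adj x y := by
  refine Q_ind ?_ h1 h2 h3 h4
  rintro a b ⟨x, y, hx, hy, h⟩
  exact ⟨y, x, hy, hx, h.symm⟩

/-! ## Symmetries of `Q r` -/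

/-- the map which exchanges the two vertices `x` -/
def sw (r : ℕ) : ((Fin 3 ⊕ Fin 2) ⊕ (Fin r × Fin r)) → ((Fin 3 ⊕ Fin 2) ⊕ (Fin r × Fin r))
  | Sum.inl (Sum.inl i) => Sum.inl (Sum.inl i)
  | Sum.inl (Sum.inr j) => Sum.inl (Sum.inr (1 - j))
  | Sum.inr x => Sum.inr x

theorem sw_sw (r : ℕ) (p) : sw r (sw r p) = p := by
  rcases p with (i | j) | x
  · rfl
  · fin_cases j <;> rfl
  · rfl

theorem rm_sw (r : ℕ) : RMinor (Q r) (qx r) (Q r) (Sum.inl (Sum.inr 1)) := by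
  refine rm_of_desc (sw r) (sw r) (fun _ => 0) (sw_sw r) (fun y hy => absurd (sw_sw r y).symm hy)
    (Q_ind' ?_ ?_ ?_ ?_) rfl
  · intro i j h
    exact ⟨Sum.inl (Sum.inl i), Sum.inl (Sum.inl j), rfl, rfl, Q_tri r h⟩
  · intro i j
    refine ⟨Sum.inl (Sum.inl i), Sum.inl (Sum.inr (1 - j)), rfl, ?_, Q_two r i _⟩
    exact sw_sw r (Sum.inl (Sum.inr j))
  · intro i x hx
    exact ⟨Sum.inl (Sum.inl i), Sum.inr x, rfl, rfl, Q_side hx⟩
  · intro x y h
    exact ⟨Sum.inr x, Sum.inr y, rfl, rfl, Q_grid h⟩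

/-- the transposition of `0` and `1` -/
def t3 : Fin 3 → Fin 3 := ![1, 0, 2]

theorem t3_t3 (i : Fin 3) : t3 (t3 i) = i := by fin_cases i <;> rfl

/-- transposition of the grid -/
def tr (r : ℕ) : ((Fin 3 ⊕ Fin 2) ⊕ (Fin r × Fin r)) → ((Fin 3 ⊕ Fin 2) ⊕ (Fin r × Fin r))
  | Sum.inl (Sum.inl i) => Sum.inl (Sum.inl (t3 i))
  | Sum.inl (Sum.inr j) => Sum.inl (Sum.inr j)
  | Sum.inr x => Sum.inr (x.2, x.1)

theorem tr_tr (r : ℕ) (p) : tr r (tr r p) = p := by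
  rcases p with (i | j) | x
  · show Sum.inl (Sum.inl (t3 (t3 i))) = _
    rw [t3_t3]
  · rfl
  · rfl

theorem rm_tr (r : ℕ) : RMinor (Q r) (qa r) (Q r) (Sum.inl (Sum.inl 1)) := by
  refine rm_of_desc (tr r) (tr r) (fun _ => 0) (tr_tr r) (fun y hy => absurd (tr_tr r y).symm hy)
    (Q_ind' ?_ ?_ ?_ ?_) rfl
  · intro i j h
    exact ⟨Sum.inl (Sum.inl (t3 i)), Sum.inl (Sum.inl (t3 j)), tr_tr r (Sum.inl (Sum.inl i)),
      tr_tr r (Sum.inl (Sum.inl j)), Q_tri r fun e => h (by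
        have := congrArg t3 e
        rwa [t3_t3, t3_t3] at this)⟩
  · intro i j
    exact ⟨Sum.inl (Sum.inl (t3 i)), Sum.inl (Sum.inr j), tr_tr r (Sum.inl (Sum.inl i)), rfl,
      Q_two r _ _⟩
  · intro i x hx
    refine ⟨Sum.inl (Sum.inl (t3 i)), Sum.inr (x.2, x.1), tr_tr r (Sum.inl (Sum.inl i)), rfl,
      Q_side ?_⟩
    rcases hx with ⟨rfl, h⟩ | ⟨rfl, h⟩ | ⟨rfl, h⟩
    · exact Or.inr (Or.inl ⟨rfl, h⟩)
    · exact Or.inl ⟨rfl, h⟩
    · exact Or.inr (Or.inr ⟨rfl, h.symm⟩)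
  · intro x y h
    refine ⟨Sum.inr (x.2, x.1), Sum.inr (y.2, y.1), rfl, rfl, Q_grid ?_⟩
    rw [grid_adj] at h ⊢
    exact h.symm

/-! ## `Q r` in `Q s`, last rows and columns added to `c` -/

/-- the rank -/
def rkA (s : ℕ) : ((Fin 3 ⊕ Fin 2) ⊕ (Fin s × Fin s)) → ℕ
  | Sum.inl _ => 0
  | Sum.inr y => 1 + (s - y.1.val) + (s - y.2.val)

/-- the centres -/
def cA {r s : ℕ} (h : r ≤ s) :
    ((Fin 3 ⊕ Fin 2) ⊕ (Fin r × Fin r)) → ((Fin 3 ⊕ Fin 2) ⊕ (Fin s × Fin s))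
  | Sum.inl v => Sum.inl v
  | Sum.inr x => Sum.inr (up' h x)

theorem rmA {r s : ℕ} (hlt : r < s) {k h} (hk : fq r s k = h) : RMinor (Q r) h (Q s) k := by
  refine rm_of_desc (fq r s) (cA hlt.le) (rkA s) ?_ ?_ (Q_ind' ?_ ?_ ?_ ?_) hk
  · rintro (v | x)
    · rfl
    · exact fq_up hlt.le x
  · rintro (v | y) hy
    · exact absurd rfl hy
    by_cases h : y.1.val < r ∧ y.2.val < r
    · refine absurd ?_ hy
      rw [fq_in h]
      rfl
    by_cases h1 : r ≤ y.1.val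
    · by_cases h2 : y.1.val + 1 = s
      · refine ⟨Sum.inl (Sum.inl 2), (fq_out (Or.inl h1)).symm,
          (Q_side (i := 2) (x := y) (Or.inr (Or.inr ⟨rfl, Or.inl h2⟩))).symm, ?_⟩
        show 0 < 1 + _ + _
        omega
      · have hlt' : y.1.val + 1 < s := by have := y.1.isLt; omega
        refine ⟨Sum.inr (⟨y.1.val + 1, hlt'⟩, y.2), ?_,
          Q_grid (grid_adj.2 (Or.inl ⟨Or.inl rfl, rfl⟩)), ?_⟩
        · rw [fq_out (Or.inl h1)]
          exact fq_out (Or.inl (by show r ≤ y.1.val + 1; omega))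
        · show 1 + (s - (y.1.val + 1)) + (s - y.2.val) < 1 + (s - y.1.val) + (s - y.2.val)
          omega
    · have h1' : r ≤ y.2.val := by omega
      by_cases h2 : y.2.val + 1 = s
      · refine ⟨Sum.inl (Sum.inl 2), (fq_out (Or.inr h1')).symm,
          (Q_side (i := 2) (x := y) (Or.inr (Or.inr ⟨rfl, Or.inr h2⟩))).symm, ?_⟩
        show 0 < 1 + _ + _
        omega
      · have hlt' : y.2.val + 1 < s := by have := y.2.isLt; omega
        refine ⟨Sum.inr (y.1, ⟨y.2.val + 1, hlt'⟩), ?_,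
          Q_grid (grid_adj.2 (Or.inr ⟨Or.inl rfl, rfl⟩)), ?_⟩
        · rw [fq_out (Or.inr h1')]
          exact fq_out (Or.inr (by show r ≤ y.2.val + 1; omega))
        · show 1 + (s - y.1.val) + (s - (y.2.val + 1)) < 1 + (s - y.1.val) + (s - y.2.val)
          omega
  · intro i j h
    exact ⟨Sum.inl (Sum.inl i), Sum.inl (Sum.inl j), rfl, rfl, Q_tri s h⟩
  · intro i j
    exact ⟨Sum.inl (Sum.inl i), Sum.inl (Sum.inr j), rfl, rfl, Q_two s i j⟩
  · intro i x hx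
    have hx1 := x.1.isLt
    have hx2 := x.2.isLt
    rcases hx with ⟨hi, h⟩ | ⟨hi, h⟩ | ⟨hi, h⟩
    · refine ⟨Sum.inl (Sum.inl i), Sum.inr (up' hlt.le x), rfl, fq_up hlt.le x, Q_side ?_⟩
      exact Or.inl ⟨hi, h⟩
    · refine ⟨Sum.inl (Sum.inl i), Sum.inr (up' hlt.le x), rfl, fq_up hlt.le x, Q_side ?_⟩
      exact Or.inr (Or.inl ⟨hi, h⟩)
    · subst hi
      rcases h with h | h
      · refine ⟨Sum.inr (⟨x.1.val + 1, by omega⟩, Fin.castLE hlt.le x.2), Sum.inr (up' hlt.le x),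
          fq_out (Or.inl (by show r ≤ x.1.val + 1; omega)),
          fq_up hlt.le x, Q_grid (grid_adj.2 (Or.inl ⟨Or.inr rfl, rfl⟩))⟩
      · refine ⟨Sum.inr (Fin.castLE hlt.le x.1, ⟨x.2.val + 1, by omega⟩), Sum.inr (up' hlt.le x),
          fq_out (Or.inr (by show r ≤ x.2.val + 1; omega)),
          fq_up hlt.le x, Q_grid (grid_adj.2 (Or.inr ⟨Or.inr rfl, rfl⟩))⟩
  · intro x y h
    refine ⟨Sum.inr (up' hlt.le x), Sum.inr (up' hlt.le y), fq_up hlt.le x,
      fq_up hlt.le y, Q_grid ?_⟩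
    rw [grid_adj] at h ⊢
    rcases h with ⟨h1, h2⟩ | ⟨h1, h2⟩
    · exact Or.inl ⟨h1, by show Fin.castLE hlt.le x.2 = Fin.castLE hlt.le y.2; rw [h2]⟩
    · exact Or.inr ⟨h1, by show Fin.castLE hlt.le x.1 = Fin.castLE hlt.le y.1; rw [h2]⟩

/-! ## `Q r` in `Q (r + 1)`, `c` becomes `a` -/

/-- `2` and `0` exchanged -/
def u3 : Fin 3 → Fin 3 := ![2, 1, 0]

theorem u3_u3 (i : Fin 3) : u3 (u3 i) = i := by fin_cases i <;> rfl

/-- the map -/
def fB (r : ℕ) :
    ((Fin 3 ⊕ Fin 2) ⊕ (Fin (r + 1) × Fin (r + 1))) → ((Fin 3 ⊕ Fin 2) ⊕ (Fin r × Fin r))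
  | Sum.inl (Sum.inl i) => Sum.inl (Sum.inl (u3 i))
  | Sum.inl (Sum.inr j) => Sum.inl (Sum.inr j)
  | Sum.inr y => if h1 : y.1.val = r then Sum.inl (Sum.inl 0) else
      if h2 : y.2.val = r then Sum.inl (Sum.inl 2) else
      Sum.inr (⟨r - 1 - y.1.val, by have := y.1.isLt; omega⟩,
        ⟨y.2.val, by have := y.2.isLt; omega⟩)

theorem fB_row {r : ℕ} {y : Fin (r + 1) × Fin (r + 1)} (h : y.1.val = r) :
    fB r (Sum.inr y) = Sum.inl (Sum.inl 0) := dif_pos h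

theorem fB_col {r : ℕ} {y : Fin (r + 1) × Fin (r + 1)} (h : y.1.val ≠ r) (h2 : y.2.val = r) :
    fB r (Sum.inr y) = Sum.inl (Sum.inl 2) := by
  show dite _ _ _ = _
  rw [dif_neg h, dif_pos h2]

theorem fB_in {r : ℕ} {y : Fin (r + 1) × Fin (r + 1)} (h : y.1.val ≠ r) (h2 : y.2.val ≠ r) :
    fB r (Sum.inr y) = Sum.inr (⟨r - 1 - y.1.val, by have := y.1.isLt; omega⟩,
      ⟨y.2.val, by have := y.2.isLt; omega⟩) := by
  show dite _ _ _ = _
  rw [dif_neg h, dif_neg h2]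

/-- the vertex of the large grid -/
def dn' {r : ℕ} (x : Fin r × Fin r) : Fin (r + 1) × Fin (r + 1) :=
  (⟨r - 1 - x.1.val, by omega⟩, ⟨x.2.val, by have := x.2.isLt; omega⟩)

theorem fB_dn {r : ℕ} (x : Fin r × Fin r) : fB r (Sum.inr (dn' x)) = Sum.inr x := by
  have h1 := x.1.isLt
  have h2 := x.2.isLt
  rw [fB_in (by show r - 1 - x.1.val ≠ r; omega) (by show x.2.val ≠ r; omega)]
  refine congrArg Sum.inr (Prod.ext (Fin.ext ?_) (Fin.ext ?_))
  · show r - 1 - (r - 1 - x.1.val) = x.1.val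
    omega
  · rfl

/-- the centres -/
def cB {r : ℕ} :
    ((Fin 3 ⊕ Fin 2) ⊕ (Fin r × Fin r)) → ((Fin 3 ⊕ Fin 2) ⊕ (Fin (r + 1) × Fin (r + 1)))
  | Sum.inl (Sum.inl i) => Sum.inl (Sum.inl (u3 i))
  | Sum.inl (Sum.inr j) => Sum.inl (Sum.inr j)
  | Sum.inr x => Sum.inr (dn' x)

/-- the rank -/
def rkB (s : ℕ) : ((Fin 3 ⊕ Fin 2) ⊕ (Fin s × Fin s)) → ℕ
  | Sum.inl _ => 0
  | Sum.inr y => 1 + y.1.val + y.2.val

theorem rmB {r : ℕ} {k h} (hk : fB r k = h) : RMinor (Q r) h (Q (r + 1)) k := by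
  refine rm_of_desc (fB r) cB (rkB (r + 1)) ?_ ?_ (Q_ind' ?_ ?_ ?_ ?_) hk
  · rintro ((i | j) | x)
    · show Sum.inl (Sum.inl (u3 (u3 i))) = _
      rw [u3_u3]
    · rfl
    · exact fB_dn x
  · rintro ((i | j) | y) hy
    · refine absurd ?_ hy
      show _ = Sum.inl (Sum.inl (u3 (u3 i)))
      rw [u3_u3]
    · exact absurd rfl hy
    have hy1 := y.1.isLt
    have hy2 := y.2.isLt
    by_cases h1 : y.1.val = r
    · refine ⟨Sum.inl (Sum.inl 2), ?_,
        (Q_side (i := 2) (x := y) (Or.inr (Or.inr ⟨rfl, Or.inl (by omega)⟩))).symm, ?_⟩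
      · rw [fB_row h1]
        rfl
      · show 0 < 1 + _ + _
        omega
    by_cases h2 : y.2.val = r
    · by_cases h0 : y.1.val = 0
      · refine ⟨Sum.inl (Sum.inl 0), ?_, (Q_side (i := 0) (x := y) (Or.inl ⟨rfl, h0⟩)).symm, ?_⟩
        · rw [fB_col h1 h2]
          rfl
        · show 0 < 1 + _ + _
          omega
      · refine ⟨Sum.inr (⟨y.1.val - 1, by omega⟩, y.2), ?_,
          Q_grid (grid_adj.2 (Or.inl ⟨Or.inr ?_, rfl⟩)), ?_⟩
        · rw [fB_col h1 h2]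
          exact fB_col (by show y.1.val - 1 ≠ r; omega) h2
        · show y.1.val - 1 + 1 = y.1.val
          omega
        · show 1 + (y.1.val - 1) + y.2.val < 1 + y.1.val + y.2.val
          omega
    · refine absurd ?_ hy
      rw [fB_in h1 h2]
      refine congrArg Sum.inr (Prod.ext (Fin.ext ?_) (Fin.ext ?_))
      · show y.1.val = r - 1 - (r - 1 - y.1.val)
        omega
      · rfl
  · intro i j h
    refine ⟨Sum.inl (Sum.inl (u3 i)), Sum.inl (Sum.inl (u3 j)), ?_, ?_, Q_tri _ fun e => h ?_⟩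
    · show Sum.inl (Sum.inl (u3 (u3 i))) = _
      rw [u3_u3]
    · show Sum.inl (Sum.inl (u3 (u3 j))) = _
      rw [u3_u3]
    · have := congrArg u3 e
      rwa [u3_u3, u3_u3] at this
  · intro i j
    refine ⟨Sum.inl (Sum.inl (u3 i)), Sum.inl (Sum.inr j), ?_, rfl, Q_two _ _ j⟩
    show Sum.inl (Sum.inl (u3 (u3 i))) = _
    rw [u3_u3]
  · intro i x hx
    have hx1 := x.1.isLt
    have hx2 := x.2.isLt
    rcases hx with ⟨rfl, h⟩ | ⟨rfl, h⟩ | ⟨rfl, h⟩
    · refine ⟨Sum.inr (⟨r, by omega⟩, (dn' x).2), Sum.inr (dn' x), fB_row rfl, fB_dn x,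
        Q_grid (grid_adj.2 (Or.inl ⟨Or.inr ?_, rfl⟩))⟩
      show r - 1 - x.1.val + 1 = r
      omega
    · exact ⟨Sum.inl (Sum.inl 1), Sum.inr (dn' x), rfl, fB_dn x,
        Q_side (Or.inr (Or.inl ⟨rfl, h⟩))⟩
    · rcases h with h | h
      · refine ⟨Sum.inl (Sum.inl 0), Sum.inr (dn' x), rfl, fB_dn x, Q_side (Or.inl ⟨rfl, ?_⟩)⟩
        show r - 1 - x.1.val = 0
        omega
      · refine ⟨Sum.inr ((dn' x).1, ⟨r, by omega⟩), Sum.inr (dn' x), fB_col ?_ rfl, fB_dn x,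
          Q_grid (grid_adj.2 (Or.inr ⟨Or.inr ?_, rfl⟩))⟩
        · show r - 1 - x.1.val ≠ r
          omega
        · show x.2.val + 1 = r
          omega
  · intro x y h
    have hx1 := x.1.isLt
    have hy1 := y.1.isLt
    refine ⟨Sum.inr (dn' x), Sum.inr (dn' y), fB_dn x, fB_dn y, Q_grid ?_⟩
    rw [grid_adj] at h ⊢
    rcases h with ⟨h1, h2⟩ | ⟨h1, h2⟩
    · refine Or.inl ⟨?_, Fin.ext ?_⟩
      · show r - 1 - x.1.val + 1 = r - 1 - y.1.val ∨ r - 1 - y.1.val + 1 = r - 1 - x.1.val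
        omega
      · show x.2.val = y.2.val
        rw [h2]
    · refine Or.inr ⟨h1, Fin.ext ?_⟩
      show r - 1 - x.1.val = r - 1 - y.1.val
      rw [h2]

/-! ## `Q r` in `Q (d + r)`, first rows added to `a`, first columns to `b` -/

/-- the map -/
def fC (d r : ℕ) :
    ((Fin 3 ⊕ Fin 2) ⊕ (Fin (d + r) × Fin (d + r))) → ((Fin 3 ⊕ Fin 2) ⊕ (Fin r × Fin r))
  | Sum.inl v => Sum.inl v
  | Sum.inr y => if h1 : y.1.val < d then Sum.inl (Sum.inl 0) else
      if h2 : y.2.val < d then Sum.inl (Sum.inl 1) else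
      Sum.inr (⟨y.1.val - d, by have := y.1.isLt; omega⟩,
        ⟨y.2.val - d, by have := y.2.isLt; omega⟩)

theorem fC_row {d r : ℕ} {y : Fin (d + r) × Fin (d + r)} (h : y.1.val < d) :
    fC d r (Sum.inr y) = Sum.inl (Sum.inl 0) := dif_pos h

theorem fC_col {d r : ℕ} {y : Fin (d + r) × Fin (d + r)} (h : ¬ y.1.val < d)
    (h2 : y.2.val < d) : fC d r (Sum.inr y) = Sum.inl (Sum.inl 1) := by
  show dite _ _ _ = _
  rw [dif_neg h, dif_pos h2]

theorem fC_in {d r : ℕ} {y : Fin (d + r) × Fin (d + r)} (h : ¬ y.1.val < d)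
    (h2 : ¬ y.2.val < d) :
    fC d r (Sum.inr y) = Sum.inr (⟨y.1.val - d, by have := y.1.isLt; omega⟩,
      ⟨y.2.val - d, by have := y.2.isLt; omega⟩) := by
  show dite _ _ _ = _
  rw [dif_neg h, dif_neg h2]

/-- the vertex of the large grid -/
def sh (d : ℕ) {r : ℕ} (x : Fin r × Fin r) : Fin (d + r) × Fin (d + r) :=
  (⟨d + x.1.val, by have := x.1.isLt; omega⟩, ⟨d + x.2.val, by have := x.2.isLt; omega⟩)

theorem fC_sh {d r : ℕ} (x : Fin r × Fin r) : fC d r (Sum.inr (sh d x)) = Sum.inr x := by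
  have h1 := x.1.isLt
  have h2 := x.2.isLt
  rw [fC_in (by show ¬ d + x.1.val < d; omega) (by show ¬ d + x.2.val < d; omega)]
  refine congrArg Sum.inr (Prod.ext (Fin.ext ?_) (Fin.ext ?_))
  · show d + x.1.val - d = x.1.val
    omega
  · show d + x.2.val - d = x.2.val
    omega

/-- the centres -/
def cC (d : ℕ) {r : ℕ} :
    ((Fin 3 ⊕ Fin 2) ⊕ (Fin r × Fin r)) → ((Fin 3 ⊕ Fin 2) ⊕ (Fin (d + r) × Fin (d + r)))
  | Sum.inl v => Sum.inl v
  | Sum.inr x => Sum.inr (sh d x)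

theorem rmC {d r : ℕ} (hd : 1 ≤ d) {k h} (hk : fC d r k = h) :
    RMinor (Q r) h (Q (d + r)) k := by
  refine rm_of_desc (fC d r) (cC d) (rkB (d + r)) ?_ ?_ (Q_ind' ?_ ?_ ?_ ?_) hk
  · rintro (v | x)
    · rfl
    · exact fC_sh x
  · rintro (v | y) hy
    · exact absurd rfl hy
    have hy1 := y.1.isLt
    have hy2 := y.2.isLt
    by_cases h1 : y.1.val < d
    · by_cases h0 : y.1.val = 0
      · refine ⟨Sum.inl (Sum.inl 0), ?_, (Q_side (i := 0) (x := y) (Or.inl ⟨rfl, h0⟩)).symm, ?_⟩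
        · rw [fC_row h1]
          rfl
        · show 0 < 1 + _ + _
          omega
      · refine ⟨Sum.inr (⟨y.1.val - 1, by omega⟩, y.2), ?_,
          Q_grid (grid_adj.2 (Or.inl ⟨Or.inr ?_, rfl⟩)), ?_⟩
        · rw [fC_row h1]
          exact fC_row (by show y.1.val - 1 < d; omega)
        · show y.1.val - 1 + 1 = y.1.val
          omega
        · show 1 + (y.1.val - 1) + y.2.val < 1 + y.1.val + y.2.val
          omega
    by_cases h2 : y.2.val < d
    · by_cases h0 : y.2.val = 0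
      · refine ⟨Sum.inl (Sum.inl 1), ?_,
          (Q_side (i := 1) (x := y) (Or.inr (Or.inl ⟨rfl, h0⟩))).symm, ?_⟩
        · rw [fC_col h1 h2]
          rfl
        · show 0 < 1 + _ + _
          omega
      · refine ⟨Sum.inr (y.1, ⟨y.2.val - 1, by omega⟩), ?_,
          Q_grid (grid_adj.2 (Or.inr ⟨Or.inr ?_, rfl⟩)), ?_⟩
        · rw [fC_col h1 h2]
          exact fC_col h1 (by show y.2.val - 1 < d; omega)
        · show y.2.val - 1 + 1 = y.2.val
          omega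
        · show 1 + y.1.val + (y.2.val - 1) < 1 + y.1.val + y.2.val
          omega
    · refine absurd ?_ hy
      rw [fC_in h1 h2]
      refine congrArg Sum.inr (Prod.ext (Fin.ext ?_) (Fin.ext ?_))
      · show y.1.val = d + (y.1.val - d)
        omega
      · show y.2.val = d + (y.2.val - d)
        omega
  · intro i j h
    exact ⟨Sum.inl (Sum.inl i), Sum.inl (Sum.inl j), rfl, rfl, Q_tri _ h⟩
  · intro i j
    exact ⟨Sum.inl (Sum.inl i), Sum.inl (Sum.inr j), rfl, rfl, Q_two _ i j⟩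
  · intro i x hx
    have hx1 := x.1.isLt
    have hx2 := x.2.isLt
    rcases hx with ⟨rfl, h⟩ | ⟨rfl, h⟩ | ⟨rfl, h⟩
    · refine ⟨Sum.inr (⟨d - 1, by omega⟩, (sh d x).2), Sum.inr (sh d x), fC_row ?_, fC_sh x,
        Q_grid (grid_adj.2 (Or.inl ⟨Or.inl ?_, rfl⟩))⟩
      · show d - 1 < d
        omega
      · show d - 1 + 1 = d + x.1.val
        omega
    · refine ⟨Sum.inr ((sh d x).1, ⟨d - 1, by omega⟩), Sum.inr (sh d x), fC_col ?_ ?_, fC_sh x,
        Q_grid (grid_adj.2 (Or.inr ⟨Or.inl ?_, rfl⟩))⟩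
      · show ¬ d + x.1.val < d
        omega
      · show d - 1 < d
        omega
      · show d - 1 + 1 = d + x.2.val
        omega
    · refine ⟨Sum.inl (Sum.inl 2), Sum.inr (sh d x), rfl, fC_sh x,
        Q_side (Or.inr (Or.inr ⟨rfl, ?_⟩))⟩
      show d + x.1.val + 1 = d + r ∨ d + x.2.val + 1 = d + r
      omega
  · intro x y h
    refine ⟨Sum.inr (sh d x), Sum.inr (sh d y), fC_sh x, fC_sh y, Q_grid ?_⟩
    rw [grid_adj] at h ⊢
    rcases h with ⟨h1, h2⟩ | ⟨h1, h2⟩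
    · refine Or.inl ⟨?_, Fin.ext ?_⟩
      · show d + x.1.val + 1 = d + y.1.val ∨ d + y.1.val + 1 = d + x.1.val
        omega
      · show d + x.2.val = d + y.2.val
        rw [h2]
    · refine Or.inr ⟨?_, Fin.ext ?_⟩
      · show d + x.2.val + 1 = d + y.2.val ∨ d + y.2.val + 1 = d + x.2.val
        omega
      · show d + x.1.val = d + y.1.val
        rw [h2]

/-! ## (COV) -/

/-- all vertices of the triangle -/
theorem rm_tri (r : ℕ) (i : Fin 3) :
    RMinor (Q r) (qa r) (Q (r + 1)) (Sum.inl (Sum.inl i)) := by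
  fin_cases i
  · exact rmA (Nat.lt_succ_self r) (k := Sum.inl (Sum.inl 0)) rfl
  · exact rm_trans (rm_tr r) (rmA (Nat.lt_succ_self r) (k := Sum.inl (Sum.inl 1)) rfl)
  · exact rmB (k := Sum.inl (Sum.inl 2)) rfl

/-- **(COV)** -/
theorem cov : CovStmt := by
  intro r hr
  refine ⟨r + 1 + (r + 1), ?_⟩
  rintro ((i | j) | y)
  · left
    exact rm_trans (rm_tri r i) (rmA (by omega) (k := Sum.inl (Sum.inl i)) rfl)
  · right
    fin_cases j
    · exact rmA (by omega) (k := Sum.inl (Sum.inr 0)) rfl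
    · exact rm_trans (rm_sw r) (rmA (by omega) (k := Sum.inl (Sum.inr 1)) rfl)
  · left
    by_cases h : y.1.val < r + 1
    · exact rm_trans (rm_tri r 0) (rmC (by omega) (fC_row h))
    · exact rm_trans (rm_tri r 2) (rmA (by omega) (fq_out (Or.inl (by omega))))

end Vale.Agent.P235.H427.Cov
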