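import Vale.Agent.P235.H427.TreePiece

/-!
P235 (helper427).  `H56.main5` with `TreePiece` in place of `Piece`: the excluded minors all of
whose components are minors of graphs which are glued, at vertices, in two ways: from minors of the
`(Q r, a)` at `a`, and from minors of the `(Q r, x)` at `x` (and planar graphs and `K_{3,3}`).
-/

set_option autoImplicit false

namespace Vale.Agent.P235.H427

open SimpleGraph hiding Free
open Vale.Agent.P235 Vale.Agent.P235.H134 Vale.Agent.P235.H141 Vale.Agent.P235.H606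
open Vale.Agent.P235.H56

/-- **The families.** -/
theorem main7 : ∃ C : ℝ, 1 ≤ C ∧
    (∀ (V : Type) [Finite V] (G : SimpleGraph V), G.Connected → ¬ IsMinor K33 G →
      EdgeIso G C ∧ DistortionLE G C) ∧
    (∀ (t : ℕ) (V : Type) [Finite V] (G : SimpleGraph V), G.Connected →
      (∃ S : Set V, S.ncard ≤ t ∧ ∀ u ∉ S, ¬ IsMinor K33 (G.induce (compSet G S u))) →
        DistortionLE G (C * Real.log (t + 2))) ∧
    (∀ (w t : ℕ) (V : Type) [Finite V] (G : SimpleGraph V), G.Connected →
      (∀ (W : Type) [Finite W] (H : SimpleGraph W), H.Connected → Conn3 H → IsMinor H G →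
        ST.H626.PlanePiece w t W H) →
        EdgeIso G (C * (w + Real.log (t + 2))) ∧ DistortionLE G (C * (w + Real.log (t + 2)))) ∧
    (∀ k w t : ℕ, ∃ K : ℝ, ∀ (V : Type) [Finite V] (G : SimpleGraph V), G.Connected →
      (∀ (W : Type) [Finite W] (H : SimpleGraph W), H.Connected → Conn3 H → IsMinor H G →
        ST.H945.PlaneTw k w t W H) → EdgeIso G K ∧ DistortionLE G K) ∧
    (∀ F : (V : Type) → SimpleGraph V → Prop, MinorClosed F →
      (∃ (r : ℕ) (W : Type) (_ : Finite W) (H : SimpleGraph W), H.Connected ∧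
        IsMinor H (H830.Q r) ∧ ¬ F W H) →
      ∃ K : ℝ, ∀ (V : Type) [Finite V] (G : SimpleGraph V), G.Connected → F V G →
        EdgeIso G K ∧ DistortionLE G K) ∧
    (∀ (W : Type) [Finite W] (H : SimpleGraph W),
      (∀ c : H.ConnectedComponent, TreePiece (H.induce c.supp)) →
      ∃ K : ℝ, (∀ (V : Type) [Finite V] (G : SimpleGraph V), G.Connected → ¬ IsMinor H G →
        DistortionLE G K) ∧
      ∀ (t : ℕ) (V : Type) [Finite V] (G : SimpleGraph V), G.Connected →
        (∃ S : Set V, S.ncard ≤ t ∧ ∀ u ∉ S, ¬ IsMinor H (G.induce (compSet G S u))) →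
          DistortionLE G (C * (K + Real.log (t + 2)))) ∧
    (∀ F : (V : Type) → SimpleGraph V → Prop, MinorClosed F →
      ((∃ (W : Type) (_ : Finite W) (H : SimpleGraph W), H.Connected ∧ TreePiece H ∧ ¬ F W H) ∨
      (∃ (W : Type) (_ : Finite W) (H : SimpleGraph W),
        (∀ c : H.ConnectedComponent, TreePiece (H.induce c.supp)) ∧
        ∀ (V : Type) [Finite V] (G : SimpleGraph V), F V G → ¬ IsMinor H G)) →
      ∃ K : ℝ, ∀ (V : Type) [Finite V] (G : SimpleGraph V), G.Connected → F V G →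
        DistortionLE G K) := by
  obtain ⟨C0, hC0, h1, h2, h3, h4, h5, -, -⟩ := main5 H830.sPrime H638.monoQ H12.allStar
  obtain ⟨A, hA1, hA'⟩ := apex_log'
  have hlog : ∀ t : ℕ, (0 : ℝ) ≤ Real.log ((t : ℝ) + 2) := fun t =>
    Real.log_nonneg (by have : (0 : ℝ) ≤ t := Nat.cast_nonneg t; linarith)
  refine ⟨max C0 A, hC0.trans (le_max_left _ _), ?_, ?_, ?_, h4, h5, ?_, ?_⟩
  · intro V _ G hG hK
    have h := h1 V G hG hK
    exact ⟨ST.H626.EdgeIso.mono' h.1 (le_max_left _ _), h.2.mono (le_max_left _ _)⟩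
  · intro t V _ G hG hS
    refine (h2 t V G hG hS).mono ?_
    exact mul_le_mul_of_nonneg_right (le_max_left _ _) (hlog t)
  · intro w t V _ G hG h
    have h' := h3 w t V G hG h
    have hw : (0 : ℝ) ≤ w := Nat.cast_nonneg w
    have h6 : C0 * (w + Real.log ((t : ℝ) + 2)) ≤ max C0 A * (w + Real.log ((t : ℝ) + 2)) :=
      mul_le_mul_of_nonneg_right (le_max_left _ _) (by have := hlog t; linarith)
    exact ⟨ST.H626.EdgeIso.mono' h'.1 h6, h'.2.mono h6⟩
  · intro W _ H hH
    obtain ⟨K, hK0, hK⟩ := treePiece_comps hH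
    refine ⟨K, hK, fun t V _ G hG hS => ?_⟩
    refine (apex_of hA1 hK0 (P := fun V G => ¬ IsMinor H G) hA' hK t V G hG hS).mono ?_
    exact mul_le_mul_of_nonneg_right (le_max_right _ _) (by have := hlog t; linarith)
  · rintro F hF (⟨W, hW, H, hH, hp, hFH⟩ | ⟨W, hW, H, hH, hno⟩)
    · obtain ⟨K, -, hK⟩ := treePiece_free hp
      refine ⟨K, fun V _ G hG hFG => hK V G hG fun h => hFH ?_⟩
      exact minor F hF V W G H hG hH h hFG
    · obtain ⟨K, -, hK⟩ := treePiece_comps hH
      exact ⟨K, fun V _ G hG hFG => hK V G hG (hno V G hFG)⟩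

end Vale.Agent.P235.H427
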