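import Vale.Agent.P235.H447.OneB
import Vale.Agent.P235.H56.RDefs

/-!
# Gluing at a vertex, relative form: the model (helper427, after helper447's `oneB`)

As `OneBStmt`, for leaves with an arbitrary property `P0` which passes to connected supersets.
-/

set_option autoImplicit false

namespace Vale.Agent.P235.H427.OneB2

open SimpleGraph Vale.Agent.P235 Vale.Agent.P235.H134 Vale.Agent.P235.H606 Vale.Agent.P235.H750
open Vale.Agent.P235.H141 Vale.Agent.P235.H786 Vale.Agent.P235.H447

section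
variable {V : Type} {G : SimpleGraph V}

/-- a star inside a connected set extends to a partition of the set -/
theorem star_part2 [Finite V] {N : ℕ} {P0 : Set V → Prop} {A : Set V}
    (hmono : ∀ L L' : Set V, L ⊆ L' → (G.induce L).Connected → (G.induce L').Connected → P0 L →
      P0 L')
    (hA : (G.induce A).Connected) (h : StarIn G N P0 A) :
    ∃ (Z : Set V) (L : Fin N → Set V), Z ⊆ A ∧ (∀ i, L i ⊆ A) ∧ (G.induce Z).Connected ∧
      (∀ i, (G.induce (L i)).Connected ∧ P0 (L i)) ∧ (∀ i, Disjoint Z (L i)) ∧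
      (∀ i j, i ≠ j → Disjoint (L i) (L j)) ∧ (∀ i, ∃ z ∈ Z, ∃ x ∈ L i, G.Adj z x) ∧
      ∀ x ∈ A, x ∈ Z ∨ ∃ i, x ∈ L i := by
  classical
  by_contra hno
  push Not at hno
  have key : ∀ n : ℕ, ∃ (Z : Set V) (L : Fin N → Set V), Z ⊆ A ∧ (∀ i, L i ⊆ A) ∧
      (G.induce Z).Connected ∧
      (∀ i, (G.induce (L i)).Connected ∧ P0 (L i)) ∧ (∀ i, Disjoint Z (L i)) ∧
      (∀ i j, i ≠ j → Disjoint (L i) (L j)) ∧ (∀ i, ∃ z ∈ Z, ∃ x ∈ L i, G.Adj z x) ∧
      n ≤ (Z ∪ ⋃ i, L i).ncard := by
    intro n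
    induction n with
    | zero =>
      obtain ⟨Z, L, h1, h2, h3, h4, h5, h6, h7⟩ := h
      exact ⟨Z, L, h1, h2, h3, h4, h5, h6, h7, Nat.zero_le _⟩
    | succ n ih =>
      obtain ⟨Z, L, h1, h2, h3, h4, h5, h6, h7, h8⟩ := ih
      obtain ⟨w, hw, hwZ, hwL⟩ := hno Z L h1 h2 h3 h4 h5 h6 h7
      obtain ⟨⟨z, hz⟩⟩ := h3.nonempty
      obtain ⟨x, hxA, hxU, y, hyA, hyU, hxy⟩ := leave (U := Z ∪ ⋃ i, L i) hA (h1 hz) (Or.inl hz) hw
        (by
          rintro (h | h)
          · exact hwZ h
          · obtain ⟨i, hi⟩ := Set.mem_iUnion.1 h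
            exact hwL i hi)
      have hyZ : y ∉ Z := fun h => hyU (Or.inl h)
      have hyL : ∀ i, y ∉ L i := fun i h => hyU (Or.inr (Set.mem_iUnion.2 ⟨i, h⟩))
      have hcard : ∀ B : Set V, insert y (Z ∪ ⋃ i, L i) ⊆ B → n + 1 ≤ B.ncard := by
        intro B hB
        have h9 := Set.ncard_le_ncard hB (Set.toFinite _)
        rw [Set.ncard_insert_of_notMem hyU (Set.toFinite _)] at h9
        omega
      rcases hxU with hxZ | hxL
      · refine ⟨insert y Z, L, Set.insert_subset hyA h1, h2, conn_insert h3 hxZ hxy, h4, ?_, h6, ?_,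
          hcard _ ?_⟩
        · intro i
          rw [Set.disjoint_insert_left]
          exact ⟨hyL i, h5 i⟩
        · intro i
          obtain ⟨a, ha, b, hb, hab⟩ := h7 i
          exact ⟨a, Set.mem_insert_of_mem _ ha, b, hb, hab⟩
        · rw [Set.insert_union]
      · obtain ⟨i, hi⟩ := Set.mem_iUnion.1 hxL
        refine ⟨Z, Function.update L i (insert y (L i)), h1, ?_, h3, ?_, ?_, ?_, ?_, hcard _ ?_⟩
        · intro j
          by_cases hj : j = i
          · subst hj
            rw [Function.update_self]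
            exact Set.insert_subset hyA (h2 j)
          · rw [Function.update_of_ne hj]
            exact h2 j
        · intro j
          by_cases hj : j = i
          · subst hj
            rw [Function.update_self]
            have hc := conn_insert (h4 j).1 hi hxy
            exact ⟨hc, hmono _ _ (Set.subset_insert _ _) (h4 j).1 hc (h4 j).2⟩
          · rw [Function.update_of_ne hj]
            exact h4 j
        · intro j
          by_cases hj : j = i
          · subst hj
            rw [Function.update_self, Set.disjoint_insert_right]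
            exact ⟨hyZ, h5 j⟩
          · rw [Function.update_of_ne hj]
            exact h5 j
        · intro j k hjk
          by_cases hj : j = i
          · subst hj
            rw [Function.update_self, Function.update_of_ne (Ne.symm hjk),
              Set.disjoint_insert_left]
            exact ⟨hyL k, h6 j k hjk⟩
          · rw [Function.update_of_ne hj]
            by_cases hk : k = i
            · subst hk
              rw [Function.update_self, Set.disjoint_insert_right]
              exact ⟨hyL j, h6 j k hjk⟩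
            · rw [Function.update_of_ne hk]
              exact h6 j k hjk
        · intro j
          obtain ⟨a, ha, b, hb, hab⟩ := h7 j
          refine ⟨a, ha, b, ?_, hab⟩
          by_cases hj : j = i
          · subst hj
            rw [Function.update_self]
            exact Set.mem_insert_of_mem _ hb
          · rw [Function.update_of_ne hj]
            exact hb
        · rintro b (rfl | hb | hb)
          · refine Or.inr (Set.mem_iUnion.2 ⟨i, ?_⟩)
            rw [Function.update_self]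
            exact Set.mem_insert _ _
          · exact Or.inl hb
          · obtain ⟨j, hj⟩ := Set.mem_iUnion.1 hb
            refine Or.inr (Set.mem_iUnion.2 ⟨j, ?_⟩)
            by_cases hji : j = i
            · subst hji
              rw [Function.update_self]
              exact Set.mem_insert_of_mem _ hj
            · rw [Function.update_of_ne hji]
              exact hj
  obtain ⟨Z, L, -, -, -, -, -, -, -, h⟩ := key ((Set.univ : Set V).ncard + 1)
  have := Set.ncard_le_ncard (Set.subset_univ (Z ∪ ⋃ i, L i)) (Set.toFinite _)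
  omega

end

/-- (ONEB2) -/
theorem oneB2 : H56.OneB2Stmt := by
  intro W _ H S T v hS hT hU hI hno hSc V X _ _ G Q p b h P0 hG hmono hf hadj hR
  classical
  obtain ⟨ν, n1, n2, n3, n4⟩ := hR
  -- the preimages
  have hMc : ∀ s : S, (G.induce {x | p x ∈ ν s}).Connected := by
    intro s
    have hQ : Q ≤ quot G p := by
      intro x y hxy
      obtain ⟨u, w, huw, hu, hw⟩ := hadj x y hxy
      exact ⟨hxy.ne, u, w, hu, hw, huw⟩
    exact H917.pre_conn (fun a => (hf a).1) hQ (n1 s)
  have hMd : ∀ s s' : S, s ≠ s' → ∀ x, p x ∈ ν s → p x ∉ ν s' := fun s s' hss x hx hx' =>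
    Set.disjoint_left.1 (n2 s s' hss) hx hx'
  have hMa : ∀ s s' : S, H.Adj s.1 s'.1 → ∃ x, p x ∈ ν s ∧ ∃ y, p y ∈ ν s' ∧ G.Adj x y := by
    intro s s' hss
    obtain ⟨x, hx, y, hy, hxy⟩ := n3 s s' hss
    obtain ⟨u, w, huw, hu, hw⟩ := hadj x y hxy
    exact ⟨u, hu ▸ hx, w, hw ▸ hy, huw⟩
  -- the star in the preimage of `ν v`
  set vS : S := ⟨v, hS⟩ with hvS
  set A : Set V := {x | p x ∈ ν vS} with hAdef
  obtain ⟨⟨a0, ha0⟩⟩ := (n1 vS).nonempty
  have hstar : StarIn G (Nat.card W + 3) P0 A := by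
    obtain ⟨Z, L, s1, s2, s3⟩ := (hf a0).2
    have hsub : {x | p x = a0} ⊆ A := fun x (hx : p x = a0) => by
      show p x ∈ ν vS
      rw [hx]
      exact ha0
    exact ⟨Z, L, s1.trans hsub, fun i => (s2 i).trans hsub, s3⟩
  obtain ⟨Z, L, z1, z2, z3, z4, z5, z6, z7, z8⟩ := star_part2 hmono (hMc vS) hstar
  -- the vertices which must not be lost
  have hd : ∀ s : S, ∃ x, s ≠ vS → H.Adj v s.1 → p x ∈ ν vS ∧ ∃ y, p y ∈ ν s ∧ G.Adj x y := by
    intro s
    by_cases hs : s ≠ vS ∧ H.Adj v s.1
    · obtain ⟨x, hx, y, hy, hxy⟩ := hMa vS s hs.2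
      exact ⟨x, fun _ _ => ⟨hx, y, hy, hxy⟩⟩
    · exact ⟨b, fun h1 h2 => absurd ⟨h1, h2⟩ hs⟩
  choose d hd using hd
  have hi : ∃ i : Fin (Nat.card W + 3), b ∉ L i ∧ ∀ s : S, d s ∉ L i := by
    by_contra hcon
    push Not at hcon
    have h1 : ∀ i, ∃ o : Option S, o.elim b d ∈ L i := by
      intro i
      by_cases hb : b ∈ L i
      · exact ⟨none, hb⟩
      · obtain ⟨s, hs⟩ := hcon i hb
        exact ⟨some s, hs⟩
    choose o ho using h1
    have hinj : Function.Injective o := by
      intro i j hij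
      by_contra hne
      have := ho j
      rw [← hij] at this
      exact Set.disjoint_left.1 (z6 i j hne) (ho i) this
    have hc := Nat.card_le_card_of_injective o hinj
    have hc2 : Nat.card S ≤ Nat.card W := Finite.card_subtype_le _
    rw [Nat.card_eq_fintype_card (α := Fin _), Fintype.card_fin, Finite.card_option] at hc
    omega
  obtain ⟨i, hib, hid⟩ := hi
  set R : Set V := A \ L i with hRdef
  have hRc : (G.induce R).Connected :=
    star_minus z3 (fun j => (z4 j).1) z5 z1 z2 z6 z7 z8 i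
  obtain ⟨z, hz, y, hy, hzy⟩ := z7 i
  have hzR : z ∈ R := ⟨z1 hz, fun hh => Set.disjoint_left.1 (z5 i) hz hh⟩
  by_cases hτ : ∃ μ : T → Set V, (∀ a, (G.induce (μ a)).Connected ∧ μ a ⊆ L i) ∧
      (∀ a b, a ≠ b → Disjoint (μ a) (μ b)) ∧
      (∀ a b, (H.induce T).Adj a b → ∃ x ∈ μ a, ∃ y ∈ μ b, G.Adj x y) ∧ y ∈ μ ⟨v, hT⟩
  swap
  · -- the exceptional leaf
    right
    let P : S → Set V := fun s => if s = vS then R else {x | p x ∈ ν s}
    have hPv : P vS = R := if_pos rfl
    have hPs : ∀ s, s ≠ vS → P s = {x | p x ∈ ν s} := fun s hs => if_neg hs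
    have hPc : ∀ s, (G.induce (P s)).Connected := by
      intro s
      by_cases hs : s = vS
      · rw [hs, hPv]
        exact hRc
      · rw [hPs s hs]
        exact hMc s
    have hPa : ∀ s s' : S, H.Adj s.1 s'.1 → ∃ x ∈ P s, ∃ y ∈ P s', G.Adj x y := by
      intro s s' hss
      by_cases hs : s = vS
      · have hs' : s' ≠ vS := fun e => hss.ne (by rw [hs, e])
        have hss' : H.Adj v s'.1 := by
          have := hss
          rw [hs] at this
          exact this
        obtain ⟨h1, y, hy, hxy⟩ := hd s' hs' hss'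
        refine ⟨d s', ?_, y, ?_, hxy⟩
        · rw [hs, hPv]
          exact ⟨h1, hid _⟩
        · rw [hPs s' hs']
          exact hy
      · by_cases hs' : s' = vS
        · have hss' : H.Adj v s.1 := by
            have := hss.symm
            rw [hs'] at this
            exact this
          obtain ⟨h1, y, hy, hxy⟩ := hd s hs hss'
          refine ⟨y, ?_, d s, ?_, hxy.symm⟩
          · rw [hPs s hs]
            exact hy
          · rw [hs', hPv]
            exact ⟨h1, hid _⟩
        · obtain ⟨x, hx, y, hy, hxy⟩ := hMa s s' hss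
          refine ⟨x, ?_, y, ?_, hxy⟩
          · rw [hPs s hs]
            exact hx
          · rw [hPs s' hs']
            exact hy
    have hzB : z ∈ ⋃ s, P s := Set.mem_iUnion.2 ⟨vS, by rw [hPv]; exact hzR⟩
    have hPB : ∀ s, P s ⊆ ⋃ s, P s := fun s => Set.subset_iUnion P s
    have hin : ∀ s, ∀ x (hx : x ∈ P s) x' (hx' : x' ∈ P s),
        (G.induce (⋃ s, P s)).Reachable ⟨x, hPB s hx⟩ ⟨x', hPB s hx'⟩ := by
      intro s x hx x' hx'
      exact ((hPc s).preconnected ⟨x, hx⟩ ⟨x', hx'⟩).map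
        (induceHomOfLE G (hPB s)).toHom
    have hreach : ∀ s : S, ∀ x (hx : x ∈ P s),
        (G.induce (⋃ s, P s)).Reachable ⟨z, hzB⟩ ⟨x, hPB s hx⟩ := by
      intro s
      refine closed_all' hSc (S := {s : S | ∀ x (hx : x ∈ P s),
        (G.induce (⋃ s, P s)).Reachable ⟨z, hzB⟩ ⟨x, hPB s hx⟩}) (x := vS) ?_ ?_ s
      · intro x hx
        exact hin vS z (by rw [hPv]; exact hzR) x hx
      · intro s hs s' hss x' hx'
        obtain ⟨x, hx, y', hy', hxy⟩ := hPa s s' hss
        have e1 := hs x hx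
        have e2 : (G.induce (⋃ s, P s)).Reachable ⟨x, hPB s hx⟩ ⟨y', hPB s' hy'⟩ :=
          Adj.reachable (show G.Adj x y' from hxy)
        exact (e1.trans e2).trans (hin s' y' hy' x' hx')
    refine ⟨L i, ⋃ s, P s, y, z, (z4 i).1, (z4 i).2, hy, ?_, ?_, hzB, hzy, ?_, hτ⟩
    · refine (connected_iff _).2 ⟨fun a c => ?_, ⟨⟨z, hzB⟩⟩⟩
      obtain ⟨s, hs⟩ := Set.mem_iUnion.1 a.2
      obtain ⟨s', hs'⟩ := Set.mem_iUnion.1 c.2
      exact (hreach s a.1 hs).symm.trans (hreach s' c.1 hs')
    · refine Set.mem_iUnion.2 ⟨h, ?_⟩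
      by_cases hh : h = vS
      · rw [hh, hPv]
        refine ⟨?_, hib⟩
        rw [hh] at n4
        exact n4
      · rw [hPs h hh]
        exact n4
    · rw [Set.disjoint_left]
      intro x hx hxL
      obtain ⟨s, hs⟩ := Set.mem_iUnion.1 hx
      by_cases hsv : s = vS
      · rw [hsv, hPv] at hs
        exact hs.2 hxL
      · rw [hPs s hsv] at hs
        exact hMd s vS hsv x hs (z2 i hxL)
  left
  obtain ⟨τ, t1, t2, t3, t4⟩ := hτ
  have hτA : ∀ t, τ t ⊆ A := fun t => (t1 t).2.trans (z2 i)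
  have hSof : ∀ w : W, w ∉ T → w ∈ S := fun w hw => by
    rcases (hU ▸ Set.mem_univ w : w ∈ S ∪ T) with h | h
    · exact h
    · exact absurd h hw
  -- the model
  let M : W → Set V := fun w => {x | ∃ hs : w ∈ S, p x ∈ ν ⟨w, hs⟩}
  let μ : W → Set V := fun w => if w = v then R ∪ τ ⟨v, hT⟩ else
    if hw : w ∈ T then τ ⟨w, hw⟩ else M w
  have μv : μ v = R ∪ τ ⟨v, hT⟩ := if_pos rfl
  have μT : ∀ w (hw : w ∈ T), w ≠ v → μ w = τ ⟨w, hw⟩ := fun w hw hwv => by
    show (if w = v then _ else _) = _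
    rw [if_neg hwv, dif_pos hw]
  have μS : ∀ w, w ∉ T → μ w = M w := fun w hw => by
    show (if w = v then _ else _) = _
    rw [if_neg (fun (e : w = v) => hw (by rw [e]; exact hT)), dif_neg hw]
  have hM : ∀ w (hs : w ∈ S), M w = {x | p x ∈ ν ⟨w, hs⟩} := fun w hs =>
    Set.ext fun x => ⟨fun ⟨_, h⟩ => h, fun h => ⟨hs, h⟩⟩
  have μvA : μ v ⊆ A := by
    rw [μv]
    exact Set.union_subset Set.sdiff_subset (hτA _)
  have hAM : ∀ w, w ∉ T → Disjoint A (M w) := by
    intro w hw
    rw [Set.disjoint_left]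
    rintro x hx ⟨hs, hx'⟩
    exact hMd vS ⟨w, hs⟩ (fun e => hw (by
      have : v = w := congrArg Subtype.val e
      exact this ▸ hT)) x hx hx'
  have cases3 : ∀ w : W, w = v ∨ (∃ hw : w ∈ T, w ≠ v) ∨ w ∉ T := by
    intro w
    by_cases h1 : w = v
    · exact Or.inl h1
    · by_cases h2 : w ∈ T
      · exact Or.inr (Or.inl ⟨h2, h1⟩)
      · exact Or.inr (Or.inr h2)
  have hdvT : ∀ w (hw : w ∈ T), w ≠ v → Disjoint (μ v) (μ w) := by
    intro w hw hwv
    rw [μv, μT w hw hwv, Set.disjoint_union_left]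
    refine ⟨?_, t2 _ _ fun e => hwv (congrArg Subtype.val e).symm⟩
    rw [Set.disjoint_left]
    rintro x ⟨_, hx⟩ hx'
    exact hx ((t1 _).2 hx')
  have hdvS : ∀ w, w ∉ T → Disjoint (μ v) (μ w) := by
    intro w hw
    rw [μS w hw]
    exact (hAM w hw).mono_left μvA
  have hdTS : ∀ w (hw : w ∈ T) w', w ≠ v → w' ∉ T → Disjoint (μ w) (μ w') := by
    intro w hw w' hwv hw'
    rw [μT w hw hwv, μS w' hw']
    exact (hAM w' hw').mono_left (hτA _)
  have hav : ∀ w, w ∉ T → H.Adj v w → ∃ x ∈ μ v, ∃ y ∈ μ w, G.Adj x y := by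
    intro w hw hvw
    have hs := hSof w hw
    have hne : (⟨w, hs⟩ : S) ≠ vS := fun e => hw (by
      have : w = v := congrArg Subtype.val e
      exact this ▸ hT)
    obtain ⟨h1, y, hy, hxy⟩ := hd ⟨w, hs⟩ hne hvw
    refine ⟨d ⟨w, hs⟩, ?_, y, ?_, hxy⟩
    · rw [μv]
      exact Or.inl ⟨h1, hid _⟩
    · rw [μS w hw, hM w hs]
      exact hy
  refine ⟨μ, fun w => ?_, fun w w' hww => ?_, fun w w' hww => ?_, ?_⟩
  · rcases cases3 w with rfl | ⟨hw, hwv⟩ | hw
    · rw [μv]
      exact connected_induce_union hRc.preconnected (t1 _).1.preconnected hzR t4 hzy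
    · rw [μT w hw hwv]
      exact (t1 _).1
    · rw [μS w hw, hM w (hSof w hw)]
      exact hMc _
  · rcases cases3 w with rfl | ⟨hw, hwv⟩ | hw <;> rcases cases3 w' with h' | ⟨hw', hwv'⟩ | hw'
    · exact absurd h'.symm hww
    · exact hdvT w' hw' hwv'
    · exact hdvS w' hw'
    · subst h'
      exact (hdvT w hw hwv).symm
    · rw [μT w hw hwv, μT w' hw' hwv']
      exact t2 _ _ fun e => hww (congrArg Subtype.val e)
    · exact hdTS w hw w' hwv hw'
    · subst h'
      exact (hdvS w hw).symm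
    · exact (hdTS w' hw' w hwv' hw).symm
    · rw [μS w hw, μS w' hw', hM w (hSof w hw), hM w' (hSof w' hw')]
      rw [Set.disjoint_left]
      intro x hx hx'
      exact hMd _ _ (fun e => hww (congrArg Subtype.val e)) x hx hx'
  · have hTT : ∀ a (ha : a ∈ T), τ ⟨a, ha⟩ ⊆ μ a := by
      intro a ha
      by_cases hav : a = v
      · subst hav
        rw [μv]
        exact Set.subset_union_right
      · rw [μT a ha hav]
    by_cases hw : w ∈ T
    · by_cases hw' : w' ∈ T
      · obtain ⟨x, hx, y, hy, hxy⟩ := t3 ⟨w, hw⟩ ⟨w', hw'⟩ hww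
        exact ⟨x, hTT w hw hx, y, hTT w' hw' hy, hxy⟩
      · by_cases hwv : w = v
        · subst hwv
          exact hav w' hw' hww
        · exact absurd hww.symm (hno w' w hw' fun hs => hwv (by
            have : w ∈ S ∩ T := ⟨hs, hw⟩
            rw [hI] at this
            exact this))
    · by_cases hw' : w' ∈ T
      · by_cases hwv : w' = v
        · subst hwv
          obtain ⟨x, hx, y, hy, hxy⟩ := hav w hw hww.symm
          exact ⟨y, hy, x, hx, hxy.symm⟩
        · exact absurd hww (hno w w' hw fun hs => hwv (by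
            have : w' ∈ S ∩ T := ⟨hs, hw'⟩
            rw [hI] at this
            exact this))
      · obtain ⟨x, hx, y, hy, hxy⟩ := hMa ⟨w, hSof w hw⟩ ⟨w', hSof w' hw'⟩ hww
        refine ⟨x, ?_, y, ?_, hxy⟩
        · rw [μS w hw, hM w (hSof w hw)]
          exact hx
        · rw [μS w' hw', hM w' (hSof w' hw')]
          exact hy
  · rcases cases3 h.1 with hh | ⟨hw, hwv⟩ | hw
    · rw [hh, μv]
      refine Or.inl ⟨?_, hib⟩
      have : h = vS := Subtype.ext hh
      rw [this] at n4
      exact n4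
    · refine absurd ?_ hwv
      have : h.1 ∈ S ∩ T := ⟨h.2, hw⟩
      rw [hI] at this
      exact this
    · rw [μS h.1 hw, hM h.1 h.2]
      exact n4

end Vale.Agent.P235.H427.OneB2
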