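import Vale.Agent.P235.H427.Cov

/-! # (RMONO) (helper427) -/

set_option autoImplicit false

namespace Vale.Agent.P235.H427.Cov

open SimpleGraph hiding Free
open Vale.Agent.P235 Vale.Agent.P235.H830 Vale.Agent.P235.H638
open Vale.Agent.P235.H750 (RMinor)

/-- **(RMONO)** -/
theorem rmono (r s : ℕ) (h : r ≤ s) (v : Fin 3 ⊕ Fin 2) :
    H750.RMinor (H830.Q r) (Sum.inl v) (H830.Q s) (Sum.inl v) := by
  rcases h.eq_or_lt with rfl | hlt
  · exact rm_of_iso (SimpleGraph.Iso.refl) rfl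
  · exact rmA hlt rfl

end Vale.Agent.P235.H427.Cov
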