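import Vale.Agent.P235.H427.BlkAll
import Vale.Agent.P235.H427.OneB2
import Vale.Agent.P235.H427.RMono
import Vale.Agent.P235.H56.CovR
import Vale.Agent.P235.H56.Tree
import Vale.Agent.P235.H578.One2

/-!
P235 (helper427 for helper56).  `TreeStmt` with everything plugged in.
-/

set_option autoImplicit false

namespace Vale.Agent.P235.H427

open SimpleGraph hiding Free
open Vale.Agent.P235 Vale.Agent.P235.H134 Vale.Agent.P235.H606 Vale.Agent.P235.H750
open Vale.Agent.P235.H56

/-- **(ONE2)** -/
theorem one2 : One2Stmt := H578.one2_of nestStmt H12.allStar H406.mono OneB2.oneB2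

/-- **(COVR)** at every vertex of a graph with large `c₁` a rooted minor `(Q r, a)` or `(Q s, x)` -/
theorem rf2Q (r s : ℕ) : RF2 (H830.Q r) (qa r) (H830.Q s) (qx s) :=
  rf2_q H830.sPrime H638.monoQ Cov.cov
    (fun r s h => ⟨Cov.rmono r s h _, Cov.rmono r s h _⟩)
    (fun h1 h2 => Cov.rm_trans h1 h2) r s

/-- **TREE** -/
theorem tree : TreeStmt :=
  tree_of one2 H638.rK33 H638.rGrid H205.planar fun r s _ _ => rf2Q r s

end Vale.Agent.P235.H427
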