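import Vale.Agent.P235.H427.TreeAll

/-!
P235 (helper427).  The class `TreePiece` of excluded minors; it contains all graphs all of whose
blocks are planar or `K_{3,3}`, except one, a minor of some `Q r`.
-/

set_option autoImplicit false

namespace Vale.Agent.P235.H427

open SimpleGraph hiding Free
open Vale.Agent.P235 Vale.Agent.P235.H134 Vale.Agent.P235.H606 Vale.Agent.P235.H750
open Vale.Agent.P235.H56

/-- a minor of a graph `T` which is glued, at vertices, from rooted planar graphs, `K_{3,3}`'s and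
rooted minors of the `(Q r, a)`, and also from rooted planar graphs, `K_{3,3}`'s and rooted minors
of the `(Q r, x)`, every graph but the first one glued at its root -/
def TreePiece {W : Type} (H : SimpleGraph W) : Prop :=
  ∃ (X : Type) (_ : Finite X) (T : SimpleGraph X) (h h' : X),
    RSum (QBlock qa) T h ∧ RSum (QBlock qx) T h' ∧ IsMinor H T

theorem treePiece_free {W : Type} {H : SimpleGraph W} (h : TreePiece H) :
    ∃ K : ℝ, 0 ≤ K ∧ Free H K := by
  obtain ⟨X, hX, T, a, x, ha, hx, hm⟩ := h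
  obtain ⟨C, hC⟩ := tree X T a x ha hx
  refine ⟨max C 0, le_max_right _ _, fun V _ G hG hno => ?_⟩
  exact (hC V G hG fun hT => hno (H56.minor_trans hm hT)).mono (le_max_left _ _)

theorem treePiece_comps {W : Type} [Finite W] {H : SimpleGraph W}
    (hH : ∀ c : H.ConnectedComponent, TreePiece (H.induce c.supp)) :
    ∃ K : ℝ, 0 ≤ K ∧ Free H K := by
  obtain ⟨K, hK⟩ := free_of_comps H12.compStmt (H := H) fun c => by
    obtain ⟨K, -, hK⟩ := treePiece_free (hH c)
    exact ⟨K, hK⟩
  refine ⟨max K 0, le_max_right _ _, fun V _ G hG hno => ?_⟩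
  exact (hK V G hG hno).mono (le_max_left _ _)

/-- blocks planar or `K_{3,3}`: glued at any root -/
theorem blockSum_rsum (q : ∀ r : ℕ, (Fin 3 ⊕ Fin 2) ⊕ (Fin r × Fin r)) {W : Type}
    {H : SimpleGraph W} (h : BlockSum PlanarOrK33 H) : ∀ h, RSum (QBlock q) H h := by
  induction h with
  | @base W H h =>
    obtain ⟨hW, hc, h⟩ := h
    intro x
    refine RSum.base ⟨hW, hc, ?_⟩
    rcases h with h | h
    · exact Or.inl h
    · exact Or.inr (Or.inl h)
  | @glue W H S T v hST hST' hadj _ _ ihS ihT =>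
    intro x
    have hvS : v ∈ S := (hST'.symm ▸ Set.mem_singleton v : v ∈ S ∩ T).1
    have hvT : v ∈ T := (hST'.symm ▸ Set.mem_singleton v : v ∈ S ∩ T).2
    have hx : x ∈ S ∪ T := hST ▸ Set.mem_univ x
    rcases hx with hx | hx
    · exact RSum.glue ⟨x, hx⟩ hvS hvT hST hST' hadj (ihS _) (ihT _)
    · exact RSum.glue (S := T) (T := S) ⟨x, hx⟩ hvT hvS (by rw [Set.union_comm]; exact hST)
        (by rw [Set.inter_comm]; exact hST') (fun a b ha hb hab => hadj b a hb ha hab.symm)
        (ihT _) (ihS _)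

theorem q_conn (r : ℕ) : (H830.Q r).Connected := by
  have h0 : ∀ p, (H830.Q r).Reachable p (Sum.inl (Sum.inl 2)) := by
    rintro ((i | j) | y)
    · by_cases h : i = 2
      · rw [h]
      · exact (H638.Q_tri r h).reachable
    · exact (H638.Q_two r 2 j).symm.reachable
    · have key : ∀ n (y : Fin r × Fin r), y.1.val = n →
          (H830.Q r).Reachable (Sum.inr y) (Sum.inl (Sum.inl 2)) := by
        intro n
        induction n with
        | zero =>
          intro y hy
          exact ((H638.Q_side (i := 0) (x := y) (Or.inl ⟨rfl, hy⟩)).symm.reachable).trans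
            (H638.Q_tri r (i := 0) (j := 2) (by decide)).reachable
        | succ n ih =>
          intro y hy
          have hlt : n < r := by have := y.1.isLt; omega
          refine Reachable.trans (Adj.reachable (H638.Q_grid (y := (⟨n, hlt⟩, y.2))
            (H638.grid_adj.2 (Or.inl ⟨Or.inr ?_, rfl⟩)))) (ih (⟨n, hlt⟩, y.2) rfl)
          show n + 1 = y.1.val
          exact hy.symm
      exact key _ y rfl
  have : Nonempty ((Fin 3 ⊕ Fin 2) ⊕ (Fin r × Fin r)) := ⟨Sum.inl (Sum.inl 2)⟩
  exact ⟨fun p p' => (h0 p).trans (h0 p').symm⟩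

/-- one connected minor of some `Q r`, then graphs all of whose blocks are planar or `K_{3,3}` -/
theorem cored_rsum (q : ∀ r : ℕ, (Fin 3 ⊕ Fin 2) ⊕ (Fin r × Fin r))
    (hq : ∀ r, RMinor (H830.Q r) (q r) (H830.Q (r + 1)) (q (r + 1))) {W : Type}
    {H : SimpleGraph W}
    (h : Cored (fun _ H' => H'.Connected ∧ ∃ r : ℕ, IsMinor H' (H830.Q r))
      (fun _ H' => BlockSum PlanarOrK33 H') H) : Finite W → ∃ h, RSum (QBlock q) H h := by
  induction h with
  | @core W H h =>
    intro hW
    obtain ⟨hc, r, hr⟩ := h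
    have := hc.nonempty
    obtain ⟨k, hk⟩ := exists_root (q_conn r) hr (q r)
    exact ⟨k, RSum.base ⟨hW, hc, Or.inr (Or.inr ⟨r + 1, by omega, Cov.rm_trans hk (hq r)⟩)⟩⟩
  | @glue W H S T v hST hST' hadj _ hT ih =>
    intro hW
    have hvS : v ∈ S := (hST'.symm ▸ Set.mem_singleton v : v ∈ S ∩ T).1
    have hvT : v ∈ T := (hST'.symm ▸ Set.mem_singleton v : v ∈ S ∩ T).2
    obtain ⟨h, hh⟩ := ih inferInstance
    exact ⟨h.1, RSum.glue h hvS hvT hST hST' hadj hh (blockSum_rsum q hT _)⟩

/-- **the class contains** the minors of graphs all of whose blocks are planar or `K_{3,3}`, except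
one, a minor of some `Q r` -/
theorem treePiece_of {W X : Type} [Finite X] {H : SimpleGraph W} {T : SimpleGraph X}
    (h : Cored (fun _ H' => H'.Connected ∧ ∃ r : ℕ, IsMinor H' (H830.Q r))
      (fun _ H' => BlockSum PlanarOrK33 H') T) (hm : IsMinor H T) : TreePiece H := by
  obtain ⟨a, ha⟩ := cored_rsum qa (fun r => Cov.rmono r (r + 1) (Nat.le_succ r) _) h inferInstance
  obtain ⟨x, hx⟩ := cored_rsum qx (fun r => Cov.rmono r (r + 1) (Nat.le_succ r) _) h inferInstance
  exact ⟨X, inferInstance, T, a, x, ha, hx, hm⟩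

end Vale.Agent.P235.H427
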